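import Vale.Agent.P216.H133C.Ext

/-!
# P216-D: gluing of relative classes over two compact pairs (Mayer-Vietoris, exactness in the middle)
-/

set_option linter.all false

open Set

namespace Vale.Agent.P216.H456D

open Vale.Agent.P216.AS Vale.Agent.P216.H901 Vale.Agent.P216.H83 Vale.Agent.P216.H133C

variable {E : Type} [MetricSpace E] {k : Type} [Field k]

/-- **Gluing.** Classes of two compact pairs which agree on the intersection come from a class of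
the union. -/
theorem glue (h2 : (2 : k) ≠ 0) {X₁ X₂ A₁ A₂ : Set E} (cX₁ : IsCompact X₁) (cX₂ : IsCompact X₂)
    (cA₁ : IsCompact A₁) (cA₂ : IsCompact A₂) (hA₁ : A₁ ⊆ X₁) (hA₂ : A₂ ⊆ X₂) (n : ℕ)
    (x₁ : Hr (tr E) (on k) X₁ A₁ n) (x₂ : Hr (tr E) (on k) X₂ A₂ n)
    (h : (resR inter_subset_left inter_subset_left n x₁ :
      Hr (tr E) (on k) (X₁ ∩ X₂) (A₁ ∩ A₂) n) = resR inter_subset_right inter_subset_right n x₂) :
    ∃ x : Hr (tr E) (on k) (X₁ ∪ X₂) (A₁ ∪ A₂) n,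
      resR subset_union_left subset_union_left n x = x₁ ∧
      resR subset_union_right subset_union_right n x = x₂ := by
  set W : Set E := X₁ ∪ X₂ with hW
  have w1 : X₁ ⊆ W := subset_union_left
  have w2 : X₂ ⊆ W := subset_union_right
  let a : H (Zr (tr E) (on k) W A₁) (Zr (tr E) (on k) W X₁) n :=
    Hinc (zr_le X₁ W A₁) (zr_le X₁ W X₁) n x₁
  let b : H (Zr (tr E) (on k) W A₂) (Zr (tr E) (on k) W X₂) n :=
    Hinc (zr_le X₂ W A₂) (zr_le X₂ W X₂) n x₂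
  have hab : Hinc (le_sup_left : Zr (tr E) (on k) W A₁ ≤ Zr (tr E) (on k) W A₁ ⊔ Zr (tr E) (on k) W A₂)
      (le_sup_left : Zr (tr E) (on k) W X₁ ≤ Zr (tr E) (on k) W X₁ ⊔ Zr (tr E) (on k) W X₂) n a =
      Hinc (le_sup_right : Zr (tr E) (on k) W A₂ ≤ Zr (tr E) (on k) W A₁ ⊔ Zr (tr E) (on k) W A₂)
      (le_sup_right : Zr (tr E) (on k) W X₂ ≤ Zr (tr E) (on k) W X₁ ⊔ Zr (tr E) (on k) W X₂) n b := by
    apply inter_injective (k := k) (a := tr E) (χ := on k) (W := W) w1 hA₁ hA₂ (inv_tr _) (inv_tr _)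
      (inv_tr _) n
    obtain ⟨f, hf, rfl⟩ := H.exists_mk x₁
    obtain ⟨g, hg, rfl⟩ := H.exists_mk x₂
    exact h
  obtain ⟨c, hc1, hc2⟩ := mv_exact_mid a b hab (Zr_anti le_rfl hA₁) (Zr_anti le_rfl hA₂)
  obtain ⟨x, hx⟩ := (union_bijective (k := k) (a := tr E) (χ := on k) (W := W) (tw_tr h2 _)
    (inv_tr _) cX₁ cX₂ cA₁ cA₂ w1 w2 hA₁ hA₂ (inv_tr _) (inv_tr _) (inv_tr _) (inv_tr _) n).2 c
  refine ⟨x, ?_, ?_⟩
  · have e1 : (resR subset_union_left subset_union_left n x : Hr (tr E) (on k) X₁ A₁ n) =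
        Hinc (zr_le W X₁ A₁) (zr_le W X₁ X₁) n (Hinc (inf_le_left : Zr (tr E) (on k) W A₁ ⊓
          Zr (tr E) (on k) W A₂ ≤ Zr (tr E) (on k) W A₁) (inf_le_left : Zr (tr E) (on k) W X₁ ⊓
          Zr (tr E) (on k) W X₂ ≤ Zr (tr E) (on k) W X₁) n c) := by
      rw [← hx]
      obtain ⟨f, hf, rfl⟩ := H.exists_mk x
      rfl
    rw [e1, hc1]
    obtain ⟨f, hf, rfl⟩ := H.exists_mk x₁
    rfl
  · have e1 : (resR subset_union_right subset_union_right n x : Hr (tr E) (on k) X₂ A₂ n) =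
        Hinc (zr_le W X₂ A₂) (zr_le W X₂ X₂) n (Hinc (inf_le_right : Zr (tr E) (on k) W A₁ ⊓
          Zr (tr E) (on k) W A₂ ≤ Zr (tr E) (on k) W A₂) (inf_le_right : Zr (tr E) (on k) W X₁ ⊓
          Zr (tr E) (on k) W X₂ ≤ Zr (tr E) (on k) W X₂) n c) := by
      rw [← hx]
      obtain ⟨f, hf, rfl⟩ := H.exists_mk x
      rfl
    rw [e1, hc2]
    obtain ⟨f, hf, rfl⟩ := H.exists_mk x₂
    rfl

end Vale.Agent.P216.H456D
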