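import Vale.Agent.P216.H456C.ThomAbs

/-!
# P216-D, block [D-THOM], list form

`exists_tau_class`: from a class of `H^n(M × M, A)`, `A ⊇ {ρ₁ / 2 ≤ dist}`, all of whose slices are
the class of the list cocycle `w`, a Thom cochain `τ` with `τ (·, y) - w` exact for every `y`;
`exists_tau_map`: the same pulled back along `g : K → M`.
-/

open Set

namespace Vale.Agent.P216.H456D

open Vale.Agent.P216.AS Vale.Agent.P216.H901 Vale.Agent.P216.H83 Vale.Agent.P216.Sl
  Vale.Agent.P216.PS Vale.Agent.P216.H133C Vale.Agent.P216.H456C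

section Gen

variable {E E' : Type} [PseudoMetricSpace E] [PseudoMetricSpace E'] {k : Type} [Field k]

theorem cocL_toL {X : Set E} {n : ℕ} {c : (Fin (n + 1) → E) → k}
    (hc : c ∈ Zc (Zr (tr E) (on k) X ∅) (Zr (tr E) (on k) X X) n) : CocL X n (toL c) := by
  have hc' : c ∈ Zc (Cc (tr E) (on k) X) (Zr (tr E) (on k) X X) n := by
    rw [Zr_empty] at hc
    exact hc
  obtain ⟨-, ε, hε, h1⟩ := mem_Zc_abs.1 hc'
  refine ⟨ε, hε, fun l hl hs => ?_⟩
  obtain ⟨y, rfl⟩ := exists_ofFn hl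
  rw [← toL_d, toL_ofFn]
  exact h1 y (smL_ofFn.1 hs)

/-- The class of a cochain, in list form. -/
theorem mk_eq_absE {X : Set E} {n : ℕ} {c : (Fin (n + 1) → E) → k}
    (hc : c ∈ Zc (Zr (tr E) (on k) X ∅) (Zr (tr E) (on k) X X) n) :
    (H.mk c hc : Hr (tr E) (on k) X ∅ n) =
      absE k X n (cls (tr E) (on k) (toL c) (cocL_toL hc)) := by
  have hc' : c ∈ Zc (Cc (tr E) (on k) X) (Zr (tr E) (on k) X X) n := by
    rw [Zr_empty] at hc
    exact hc
  have h1 : (H.mk c hc' : Ha (tr E) (on k) X n) = cls (tr E) (on k) (toL c) (cocL_toL hc) :=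
    mk_congr (ofL_toL c).symm
  rw [← h1]
  rfl

/-- Equality of classes is exactness of the difference. -/
theorem exL_sub_of_mk {X : Set E} {n : ℕ} {c : (Fin (n + 1) → E) → k}
    (hc : c ∈ Zc (Zr (tr E) (on k) X ∅) (Zr (tr E) (on k) X X) n) {w : List E → k}
    (hw : CocL X n w)
    (h : (H.mk c hc : Hr (tr E) (on k) X ∅ n) = absE k X n (cls (tr E) (on k) w hw)) :
    ExL X n fun l => toL c l - w l := by
  rw [mk_eq_absE hc] at h
  exact cls_eq_cls.1 ((absE k X n).injective h)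

end Gen

section Tau

variable {k : Type} [Field k] {M : Type} [MetricSpace M] {n : ℕ} {A : Set (M × M)}

/-- **Thom cochains with prescribed slices.** -/
theorem exists_tau_class {ρ₁ : ℝ} (hρ : 0 < ρ₁) (hA : ∀ p : M × M, ρ₁ / 2 ≤ dist p.1 p.2 → p ∈ A)
    (x : Hr (tr (M × M)) (on k) (univ : Set (M × M)) A n) {w : List M → k}
    (hw : CocL (univ : Set M) n w)
    (hx : ∀ b : M, pullR (on k) (isMap_slM b) (empty_subset _) (mapsTo_empty _ _) n
      (lesA k univ A n x) = absE k univ n (cls (tr M) (on k) w hw)) :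
    ∃ τ : N929.Tau k M n ρ₁, ∀ y : M, ExL (univ : Set M) n fun l =>
      τ.f (l.map fun x => (x, y)) - w l := by
  obtain ⟨f, hf, hN, rfl⟩ := exists_mk_Nrm Stb_Zr Stb_Zr x
  obtain ⟨-, ⟨ε₁, hε₁, hv1⟩, ε₂, hε₂, hv2⟩ := mem_Zc_rel.1 hf
  have hε : 0 < min (min ε₁ ε₂) (ρ₁ / 4) := lt_min (lt_min hε₁ hε₂) (by linarith)
  have key : ∀ {l : List (M × M)}, N929.Fine univ (min (min ε₁ ε₂) (ρ₁ / 4)) l →
      tcA ρ₁ f l = toL f l := fun hl =>
    tcA_eq hA (fun x hx => hv1 x (hx.mono subset_rfl (min_le_left _ _))) hl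
  have hcoc : N929.Coc univ (min (min ε₁ ε₂) (ρ₁ / 4)) n (tcA ρ₁ f) := by
    intro l hl hs
    have e1 : dl (tcA ρ₁ f) l = dl (toL f) l := N929.dl_congr fun l' _ hl' => key (hs.sub hl')
    rw [e1, ← toL_d]
    obtain ⟨z, hz⟩ := exists_ofFn (l := l) (n := n + 2) hl
    rw [← hz, toL_ofFn]
    refine hv2 z (smL_ofFn.1 ?_)
    rw [hz]
    exact ⟨fun _ _ => mem_univ _, fun q hq q' hq' =>
      (hs.2 q hq q' hq').trans_le ((min_le_left _ _).trans (min_le_right _ _))⟩
  refine ⟨⟨tcA ρ₁ f, fun l hl => ?_, _, hε, hcoc, fun l hl => if_pos hl⟩, fun y => ?_⟩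
  · rw [tcA, hN l hl, ite_self]
  · obtain ⟨g, hg, ε, hε', hgx⟩ := exL_sub_of_mk (c := pbK k (slM y) n f) _ hw (hx y)
    refine ⟨g, hg, min ε (min (min ε₁ ε₂) (ρ₁ / 4)), lt_min hε' hε, fun l hl hs => ?_⟩
    rw [← hgx l hl (hs.mono subset_rfl (min_le_left _ _))]
    have hfine : N929.Fine univ (min (min ε₁ ε₂) (ρ₁ / 4)) (l.map fun x => (x, y)) := by
      refine ⟨fun _ _ => mem_univ _, fun p hp q hq => ?_⟩
      obtain ⟨a, ha, rfl⟩ := List.mem_map.1 hp
      obtain ⟨b, hb, rfl⟩ := List.mem_map.1 hq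
      change dist (a, y) (b, y) < _
      rw [Prod.dist_eq, dist_self, max_eq_left dist_nonneg]
      exact (hs.2 a ha b hb).trans_le (min_le_right _ _)
    change tcA ρ₁ f (l.map fun x => (x, y)) - w l = toL (P265.AS.pb (slM y) f) l - w l
    rw [key hfine, toL_pb]
    rfl

/-- The slices pulled back along a map `g : K → M`. -/
theorem exL_pull {E : Type} [PseudoMetricSpace E] {X : Set E} {g : E → M}
    (hg : IsMap (tr E) (tr M) X univ g) {ρ₁ : ℝ} {τ : N929.Tau k M n ρ₁} {w : List M → k}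
    (h : ∀ y : M, ExL (univ : Set M) n fun l => τ.f (l.map fun x => (x, y)) - w l) (y : M) :
    ExL X n fun l => τ.f (l.map fun z => (g z, y)) - w (l.map g) := by
  have h1 := ExL.map' hg (h y)
  have e : (fun l : List E => τ.f ((l.map g).map fun x => (x, y)) - w (l.map g)) =
      fun l => τ.f (l.map fun z => (g z, y)) - w (l.map g) := by
    funext l
    rw [List.map_map]
    rfl
  rw [← e]
  exact h1

end Tau

end Vale.Agent.P216.H456D
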