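import Vale.Agent.P216.H977C.MkDefs
import Vale.Agent.P216.H971.FibPF

/-!
# P216-D, block MID: the fibre step in the cone complex, for the paths to a point

`fibS_line`: the fibre cohomology of degree `e` is a line, spanned by the class of `η`, at a
uniform scale. `fibLoc_PF`, `fibS_PF_one`, `fibS_PF_null`, `fibS_PF_line`, `fibNe_PF`: the
hypotheses of `K3.exact_of_fibres` for `X = PF b`.
-/

set_option linter.all false

open Set BoundedContinuousFunction

namespace Vale.Agent.P216.H456D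

open Vale.Agent.P216.Sl Vale.Agent.P216.PS Vale.Agent.P216.E2L Vale.Agent.P216.H977C
open Vale.Agent.P216.H977C.K3 (FibS FibLoc FibNe Data dom_cons dom_map)
open Vale.Agent.P216.H892 (FibN FibU fbr nbh)

section general

variable {k : Type} [Field k] {M E E' : Type} [PseudoMetricSpace M] [PseudoMetricSpace E]
  [PseudoMetricSpace E'] {π : E → M} {X X' X₁ : Set E} {O1 O2 : Set E'} {φ : M → E → E'}
  {ψ : M → E' → E} {e m q : ℕ} {η : List E → k} {ξ : List M → k} {ε : ℝ}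

theorem FibS_mono (h : FibS π e η ξ X X' m) (hX : X ⊆ X₁) : FibS π e η ξ X₁ X' m := by
  intro r hr
  obtain ⟨r', hr', h⟩ := h r hr
  exact ⟨r', hr', fun x xs hx f hf => h x xs hx f fun ws hw hD => hf ws hw (hD.mono hX le_rfl)⟩

theorem FibLoc_mono (h : FibLoc k π X X' q) (hX : X ⊆ X₁) : FibLoc k π X₁ X' q := by
  intro r hr
  obtain ⟨r', hr', h⟩ := h r hr
  exact ⟨r', hr', fun x xs hx f hf he => h x xs hx f (fun ws hw hD => hf ws hw (hD.mono hX le_rfl))
    (he.mono fun w hw => ⟨hX hw.1, hw.2⟩)⟩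

/-- Kill the value at the empty list. -/
def kz (g : List E → k) (l : List E) : k := if l.length = 0 then 0 else g l

theorem kz_nil (g : List E → k) : kz g [] = 0 := if_pos rfl

theorem dl_kz (g : List E → k) {l : List E} (h : 2 ≤ l.length) : dl (kz g) l = dl g l :=
  dl_congr fun l' h1 _ => if_neg (by omega)

/-- Degree `0`: constants. -/
theorem fibS_one (N : NullB π univ X X' k 0) : FibS π e η ξ X X' 1 := by
  intro r hr
  obtain ⟨r', hr', h⟩ := N r hr
  refine ⟨r', hr', fun x xs hx f hf => ?_⟩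
  obtain ⟨g, hg⟩ := h x xs hx f hf
  refine ⟨g [], 0, fun _ => 0, fun h => absurd rfl h, fun _ => rfl, rfl, fun ws hw hD => ?_⟩
  rw [hg ws hw hD]
  obtain ⟨w, rfl⟩ := List.length_eq_one_iff.1 hw
  rw [dl_one, dl_zero_fun]
  ring

/-- Null degrees. -/
theorem fibS_null (N : NullB π univ X X' k q) (hq : 1 ≤ q) : FibS π e η ξ X X' (q + 1) := by
  intro r hr
  obtain ⟨r', hr', h⟩ := N r hr
  refine ⟨r', hr', fun x xs hx f hf => ?_⟩
  obtain ⟨g, hg⟩ := h x xs hx f hf
  refine ⟨0, 0, kz g, fun _ => rfl, fun _ => rfl, kz_nil g, fun ws hw hD => ?_⟩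
  rw [hg ws hw hD, dl_kz g (by omega)]
  ring

/-- `η - ξ (x :: π)` is closed near the fibre over `x`. -/
theorem closed_v (H : Data π e η ξ X ε) {r : ℝ} (hr : 0 < r) (hrε : r ≤ ε) {x : M} {xs : List M}
    {ws : List E} (hw : ws.length = e + 2) (hD : Dom π univ X r (x :: xs) ws) :
    dl (fun ws => η ws - ξ (x :: ws.map π)) ws = 0 := by
  have h1 : dl η ws = ξ (ws.map π) := H.dη ws hw (hD.2.1.mono subset_rfl hrε)
  have h2 : dl (fun l : List E => ξ (x :: l.map π)) ws = ξ (ws.map π) := by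
    have h3 := dl_map (fun ys => ξ (x :: ys)) π ws
    have h4 := dl_cons ξ x (ws.map π)
    have h5 : dl ξ (x :: ws.map π) = 0 := H.dξ _ (by rw [List.length_cons, List.length_map, hw])
      ((dom_cons (xs := xs) hr (dom_map H.hπ hD)).2.1.mono subset_rfl hrε)
    rw [h3]
    rw [h5] at h4
    linear_combination h4
  have h6 := E2L.dl_sub η (fun l : List E => ξ (x :: l.map π)) ws
  rw [h6, h1, h2, sub_self]

/-- On the fibre over `x`, `η - ξ (x :: π)` is `η`. -/
theorem v_fibre (H : Data π e η ξ X ε) {x : M} {ws : List E} (h1 : 1 ≤ ws.length)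
    (h : ∀ w ∈ ws, π w = x) : ξ (x :: ws.map π) = 0 := by
  refine H.nξ _ fun hc => ?_
  rcases ws with _ | ⟨w, ws⟩
  · simp at h1
  · rw [List.map_cons, List.isChain_cons_cons] at hc
    exact hc.1 (h w (by simp)).symm

/-- **The fibre cohomology of degree `e` is the line of `η`**, at a uniform scale. -/
theorem fibS_line (S : FibN π univ X X' O1 O2 φ ψ) (hO : IsCompact O2) (H : Data π e η ξ X ε)
    (HL : ∀ F F' : List E' → k, CocL O1 e F → CocL O1 e F' →
      ∃ c c' : k, (c ≠ 0 ∨ c' ≠ 0) ∧ ExL O2 e fun l => c * F l + c' * F' l)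
    (Hne : ∀ x, ¬ ExL (fbr π X' x) e η) : FibS π e η ξ X X' (e + 1) := by
  intro r hr
  have he : e ≠ 0 := by have := H.he; omega
  set r₀ := min r ε with hr₀
  have hr0 : 0 < r₀ := lt_min hr H.hε
  obtain ⟨ε₁, hε₁, h1⟩ := S.pull_closed (k := k) e hr0
  obtain ⟨ε₂, hε₂, h2⟩ := S.pull_back (k := k) e hr0
  obtain ⟨ε₃, hε₃, h3⟩ := H670.Unif.unif (k := k) hO e hε₁
  obtain ⟨ε₄, hε₄, h4⟩ := S.pull_rel (k := k) e hε₃
  refine ⟨min ε₁ (min ε₂ ε₄), lt_min hε₁ (lt_min hε₂ hε₄), fun x xs hx f hf => ?_⟩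
  have hf0 : ∀ ws, ws.length = e + 2 → Dom π univ X r₀ (x :: xs) ws → dl f ws = 0 :=
    fun ws hw hD => hf ws hw (hD.mono subset_rfl (min_le_left _ _))
  have hv0 : ∀ ws, ws.length = e + 2 → Dom π univ X r₀ (x :: xs) ws →
      dl (fun ws => η ws - ξ (x :: ws.map π)) ws = 0 :=
    fun ws hw hD => closed_v H hr0 (min_le_right _ _) hw hD
  set v : List E → k := fun ws => η ws - ξ (x :: ws.map π) with hv
  have hx1 := hx.mono subset_rfl (min_le_left ε₁ (min ε₂ ε₄))
  have hx2 := hx.mono subset_rfl ((min_le_right ε₁ (min ε₂ ε₄)).trans (min_le_left _ _))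
  have hcf := h1 x xs hx1 f hf0
  have hcv := h1 x xs hx1 v hv0
  obtain ⟨gf, -, hgf⟩ := h2 x xs hx2 f hf0
  obtain ⟨gv, -, hgv⟩ := h2 x xs hx2 v hv0
  obtain ⟨c, c', hcc, hE⟩ := HL (fun l => f (l.map (ψ x))) (fun l => v (l.map (ψ x)))
    ⟨ε₁, hε₁, hcf⟩ ⟨ε₁, hε₁, hcv⟩
  -- `c ≠ 0`
  have hc : c ≠ 0 := by
    rintro rfl
    have hc' : c' ≠ 0 := hcc.resolve_left fun h => h rfl
    obtain ⟨g, -, δ, hδ, hg⟩ := hE
    obtain ⟨δ', hδ', hδ'2⟩ := S.φ_mod δ hδ
    refine Hne x ⟨fun l => c'⁻¹ * g (l.map (φ x)) + gv l, fun h => absurd h he, min ε₂ δ',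
      lt_min hε₂ hδ', fun ws hw hs => ?_⟩
    have hs1 : SmL (nbh π X' x (min ε₂ δ')) (min ε₂ δ') ws := hs.mono (fun w hw => ⟨hw.1, by
      rw [hw.2, dist_self]
      exact lt_min hε₂ hδ'⟩) le_rfl
    have e1 := hgv ws hw (hs1.mono (H892.nbh_mono (min_le_left _ _)) (min_le_left _ _))
    have e2 := hg (ws.map (φ x)) (by rw [List.length_map]; exact hw)
      (H892.SmL.map' (hs1.mono (H892.nbh_mono (min_le_right _ _)) (min_le_right _ _))
        fun w hw => hδ'2 x (mem_univ _) w hw)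
    have e3 : v ws = η ws := by
      show η ws - ξ (x :: ws.map π) = η ws
      rw [v_fibre H (by omega) fun w hw => (hs.1 w hw).2, sub_zero]
    have e4 : 0 * f ((ws.map (φ x)).map (ψ x)) + c' * v ((ws.map (φ x)).map (ψ x)) =
      dl g (ws.map (φ x)) := e2
    rw [← e3, e1, Sl.dl_add, dl_mul_left, dl_map, ← e4]
    field_simp
    ring
  -- the relation, at a uniform scale
  obtain ⟨g, -, hg⟩ := h3 (fun l => f (l.map (ψ x)) + c' / c * v (l.map (ψ x))) (fun l hl hs => by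
      have hs1 : SmL O1 ε₁ l := hs.mono S.h21 le_rfl
      rw [Sl.dl_add (fun l => f (l.map (ψ x))) (fun l => c' / c * v (l.map (ψ x))), dl_mul_left,
        hcf l hl hs1, hcv l hl hs1]
      ring) (by
    obtain ⟨g, -, δ, hδ, hg⟩ := hE
    refine ⟨fun l => c⁻¹ * g l, fun h => absurd h he, δ, hδ, fun l hl hs => ?_⟩
    rw [dl_mul_left, ← hg l hl hs]
    field_simp)
  refine ⟨0, -(c' / c), kz fun l => g (l.map (φ x)) + (gf l + c' / c * gv l), fun _ => rfl,
    fun h => absurd rfl h, kz_nil _, fun ws hw hD => ?_⟩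
  have e1 := H892.Dom.nbh hD
  have e2 := hgf ws hw (e1.mono (H892.nbh_mono ((min_le_right _ _).trans
    (min_le_left _ _))) ((min_le_right _ _).trans (min_le_left _ _)))
  have e3 := hgv ws hw (e1.mono (H892.nbh_mono ((min_le_right _ _).trans
    (min_le_left _ _))) ((min_le_right _ _).trans (min_le_left _ _)))
  have e4 := h4 x (mem_univ _) _ g hg ws hw (e1.mono (H892.nbh_mono ((min_le_right _ _).trans
    (min_le_right _ _))) ((min_le_right _ _).trans (min_le_right _ _)))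
  have e5 : f ((ws.map (φ x)).map (ψ x)) + c' / c * v ((ws.map (φ x)).map (ψ x)) =
    dl (fun l => g (l.map (φ x))) ws := e4
  rw [dl_kz _ (by have := H.he; omega), Sl.dl_add, Sl.dl_add, dl_mul_left, ← e5]
  show f ws = 0 + -(c' / c) * v ws + _
  rw [e2, e3]
  ring

end general

section paths

open Vale.Agent.P216.MV337 (evz)
open Vale.Agent.P216.H456 (PF PF_mono mem_PF_iff P_subset_PF)

variable {k : Type} [Field k] {M : Type} [MetricSpace M] [CompactSpace M] {x₀ b : M}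
  {c r0 t T C D B0 ε : ℝ} {φ ψ : M → ℝ → (ℝ →ᵇ M) → ℝ →ᵇ M} {e q m : ℕ}
  {η : List (ℝ →ᵇ M) → k} {ξ : List M → k}

omit [CompactSpace M] in
theorem fbr_PF (x : M) (t : ℝ) : fbr evz (PF b t) x = P x b t := by
  ext w
  constructor
  · rintro ⟨h1, h2⟩
    have h3 : w 0 = x := h2
    have h4 := mem_PF_iff.1 h1
    rwa [h3] at h4
  · intro h
    exact ⟨P_subset_PF h, eq_left h le_rfl⟩

/-- **[LOC]** for the paths to a point. -/
theorem fibLoc_PF (U : FibU evz (fun t => PF b t) (fun t => P x₀ b t) c r0 φ ψ) (ht : 0 < t)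
    (hC : 2 * c ≤ C) (q : ℕ) : FibLoc k evz (PF b (t + C)) (PF b t) q := by
  have h : FibLoc k evz (PF b (t + c + c)) (PF b t) q := fun r hr =>
    U.locB univ (fun t => isCompact_P _ _ _) (T := t + c) ht le_rfl q r hr
  exact FibLoc_mono h (PF_mono (by linarith))

/-- Degree `0`. -/
theorem fibS_PF_one (U : FibU evz (fun t => PF b t) (fun t => P x₀ b t) c r0 φ ψ)
    (hD : IsPi M D) (ht : 0 < t) (hC : 2 * c + D ≤ C) :
    FibS evz e η ξ (PF b (t + C)) (PF b t) 1 :=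
  FibS_mono (fibS_one (H971.Low.nullB_PF_zero U univ hD ht)) (PF_mono (by linarith))

/-- Null degrees. -/
theorem fibS_PF_null (U : FibU evz (fun t => PF b t) (fun t => P x₀ b t) c r0 φ ψ) (ht : 0 < t)
    (hB : 0 ≤ B0) (hC : 2 * c + B0 ≤ C) (hm : 2 ≤ m)
    (hN : ∀ s > 0, ∀ F : List (ℝ →ᵇ M) → k, CocL (P x₀ b (s + B0)) (m - 1) F →
      ExL (P x₀ b s) (m - 1) F) : FibS evz e η ξ (PF b (t + C)) (PF b t) m := by
  have hc := U.hc
  obtain ⟨q, rfl⟩ : ∃ q, m = q + 1 := ⟨m - 1, by omega⟩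
  rw [Nat.add_sub_cancel] at hN
  have h := U.nullB univ (fun t => isCompact_P _ _ _) (T := t + c + B0) ht (by linarith)
    (k := k) (q := q) fun F hF => hN (t + c) (by linarith) F hF
  exact FibS_mono (fibS_null h (by omega)) (PF_mono (by linarith))

/-- The degree of `η`. -/
theorem fibS_PF_line (U : FibU evz (fun t => PF b t) (fun t => P x₀ b t) c r0 φ ψ) (ht : 0 < t)
    (hB : 0 ≤ B0) (hC : 2 * c + B0 ≤ C) (hT : t + C ≤ T) (hlow : LowL k M B0 e)
    (H : Data evz e η ξ (PF b T) ε) (Hne : ∀ x, ¬ ExL (P x b t) e η) :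
    FibS evz e η ξ (PF b (t + C)) (PF b t) (e + 1) := by
  have hc := U.hc
  have he := H.he
  have e1 : t + c + B0 + c = t + (2 * c + B0) := by ring
  have h := fibS_line (U.fibN univ ht (T := t + c + B0) (by linarith))
    (isCompact_P _ _ _) (H.mono (PF_mono (by linarith : t + c + B0 + c ≤ T)) H.hε le_rfl)
    (fun F F' hF hF' => by
      obtain ⟨g, ng, hg, hFg⟩ := H971.Low.exists_nrm hF
      obtain ⟨g', ng', hg', hFg'⟩ := H971.Low.exists_nrm hF'
      obtain ⟨a, a', ha, hE⟩ := hlow x₀ b (t + c) (by linarith) g g' ng ng' hg hg'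
      have hX : P x₀ b (t + c) ⊆ P x₀ b (t + c + B0) := P_mono (by linarith)
      refine ⟨a, a', ha, H971.Low.ExC.exL (H971.Low.ExC.congr
        ((((hFg.mono hX).mul a).add ((hFg'.mono hX).mul a')).add (H971.Low.exC_of_exL hE))
        fun l _ => ?_) (by omega)⟩
      ring)
    (fun x => by rw [fbr_PF]; exact Hne x)
  exact FibS_mono h (PF_mono (by linarith))

/-- All the degrees together. -/
theorem fibS_PF (U : FibU evz (fun t => PF b t) (fun t => P x₀ b t) c r0 φ ψ) (hD : IsPi M D)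
    (hB : 0 ≤ B0) (hC : 2 * c + D + B0 ≤ C) (hT : t + C ≤ T) (ht : 0 < t) (hm : 1 ≤ m)
    (hN : m ≠ 1 → m ≠ e + 1 → ∀ s > 0, ∀ F : List (ℝ →ᵇ M) → k, CocL (P x₀ b (s + B0)) (m - 1) F →
      ExL (P x₀ b s) (m - 1) F) (hlow : m = e + 1 → LowL k M B0 e)
    (H : Data evz e η ξ (PF b T) ε) (Hne : m = e + 1 → ∀ x, ¬ ExL (P x b t) e η) :
    FibS evz e η ξ (PF b (t + C)) (PF b t) m := by
  have hc := U.hc
  have hD0 := hD.nonneg
  by_cases h1 : m = 1
  · subst h1
    exact fibS_PF_one U hD ht (by linarith)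
  by_cases h2 : m = e + 1
  · subst h2
    exact fibS_PF_line U ht hB (by linarith) hT (hlow rfl) H (Hne rfl)
  · exact fibS_PF_null U ht hB (by linarith) (by omega) (hN h1 h2)

omit [CompactSpace M] in
/-- `η` is not exact on the fibres. -/
theorem fibNe_PF (he : 1 ≤ e) (Hne : ∀ x, ¬ ExL (P x b t) e η) : FibNe evz e η (PF b t) := by
  intro r hr x a f hf
  by_contra ha
  refine Hne x ⟨fun l => a⁻¹ * f l, fun h => absurd h (by omega), r, hr, fun l hl hs => ?_⟩
  have h := hf l hl (hs.mono P_subset_PF le_rfl) fun w hw => eq_left (hs.1 w hw) le_rfl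
  rw [dl_mul_left, ← h]
  field_simp

omit [CompactSpace M] in
/-- The fibres are not empty. -/
theorem ne_PF (hD : IsPi M D) (ht : D ≤ t) (x : M) : ∃ w ∈ PF b t, evz w = x := by
  obtain ⟨w, hw⟩ := hD.ne x b
  exact ⟨w, P_subset_PF (P_mono ht hw), eq_left hw le_rfl⟩

end paths

end Vale.Agent.P216.H456D
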