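import Vale.Agent.P216.D246.Thom

/-!
# P216-D, block [MID] : the cohomology of a closed manifold minus an open box

`M` compact connected metric, locally euclidean of dimension `n ≥ 1`, `H^n (M; k) ≠ 0`,
`K = c.A1 v δ` the complement of an open box of a chart.

* `noH_rel_A1`: `H^q (M, K) = 0` for `q ≠ n`;
* `lesB_surj`: `H^q (M) → H^q (K)` is onto for all `q`;
* `lesB_inj`: it is injective for `q ≠ n`;
* `noH_A1_top`: `H^n (K) = 0`.

List forms: `exists_ext`, `exL_of_A1`, `exL_A1_top`, `null_A1`, `line_A1`.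
-/

set_option linter.all false

open Set

namespace Vale.Agent.P216.H456D

open Vale.Agent.P216.AS Vale.Agent.P216.H901 Vale.Agent.P216.H83 Vale.Agent.P216.Sl
  Vale.Agent.P216.PS Vale.Agent.P216.H133C Vale.Agent.P216.C313 Vale.Agent.P216.D246

variable {M : Type} [MetricSpace M] [CompactSpace M] {n : ℕ} {k : Type} [Field k] {c : Cub M n}
  {v : Fin n → ℝ} {δ : ℝ}

/-- `H^q (M, K) = 0` for `q ≠ n`. -/
theorem noH_rel_A1 (h2 : (2 : k) ≠ 0) (hδ : 0 < δ) (hb : ‖v‖ + δ ≤ 2) {q : ℕ} (hq : q ≠ n) :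
    NoH k (univ : Set M) (c.A1 v δ) q := by
  intro z
  apply (Cub.th_bij (c := c) h2 hδ hb q).1
  rw [map_zero]
  exact noH_cube h2 isCompact_univ (empty_subset _) n q (fun p hp => noH_unit (by omega)) _

/-- `H^q (M) → H^q (K)` is injective for `q ≠ n`. -/
theorem lesB_inj (h2 : (2 : k) ≠ 0) (hδ : 0 < δ) (hb : ‖v‖ + δ ≤ 2) {q : ℕ} (hq : q ≠ n) :
    Function.Injective (lesB k (subset_univ (c.A1 v δ)) q) := by
  rw [← LinearMap.ker_eq_bot, LinearMap.ker_eq_bot']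
  intro z hz
  obtain ⟨w, rfl⟩ := (les_ex1 k (subset_univ (c.A1 v δ)) q z).1 hz
  rw [show w = 0 from noH_rel_A1 h2 hδ hb hq w, map_zero]

omit [CompactSpace M] in
theorem addL {X : Set M} {m : ℕ} {f g f' : List M → k} (hf : ExL X m f) (hg : ExL X m g)
    (h : ∀ l, f' l = f l + g l) : ExL X m f' := by
  obtain ⟨s, hs0, ε, hε, hs⟩ := hf
  obtain ⟨s', hs0', ε', hε', hs'⟩ := hg
  refine ⟨fun l => s l + s' l, fun h0 l => by simp only [hs0 h0, hs0' h0, add_zero], min ε ε',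
    lt_min hε hε', fun l hl hl' => ?_⟩
  rw [N929.dl_add_fun, h, ← hs l hl (hl'.mono le_rfl (min_le_left _ _)),
    ← hs' l hl (hl'.mono le_rfl (min_le_right _ _))]

variable [ConnectedSpace M]

/-- `H^q (M) → H^q (K)` is onto. -/
theorem lesB_surj (h2 : (2 : k) ≠ 0) (hn : 1 ≤ n) (loc : LocEuc M n)
    {ω : Hr (tr M) (on k) (univ : Set M) ∅ n} (hω : ω ≠ 0) (hδ : 0 < δ) (hb : ‖v‖ + δ ≤ 2)
    (q : ℕ) : Function.Surjective (lesB k (subset_univ (c.A1 v δ)) q) := by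
  intro y
  refine (les_ex2 k (subset_univ (c.A1 v δ)) q y).1 ?_
  by_cases hq : q + 1 = n
  · subst hq
    apply (lesA_box_bij h2 hn loc hω c v δ hδ hb).1
    rw [map_zero]
    exact (les_ex3 k (subset_univ (c.A1 v δ)) q _).2 ⟨y, rfl⟩
  · exact noH_rel_A1 h2 hδ hb hq _

/-- `H^n (K) = 0`. -/
theorem noH_A1_top (h2 : (2 : k) ≠ 0) (hn : 1 ≤ n) (loc : LocEuc M n)
    {ω : Hr (tr M) (on k) (univ : Set M) ∅ n} (hω : ω ≠ 0) (hδ : 0 < δ) (hb : ‖v‖ + δ ≤ 2) :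
    NoH k (c.A1 v δ) ∅ n := by
  intro y
  obtain ⟨z, rfl⟩ := lesB_surj (c := c) h2 hn loc hω hδ hb n y
  obtain ⟨w, rfl⟩ := (lesA_box_bij h2 hn loc hω c v δ hδ hb).2 z
  exact (les_ex1 k (subset_univ (c.A1 v δ)) n _).2 ⟨w, rfl⟩

/-! ### List forms -/

variable {w : List M → k}

omit [CompactSpace M] [ConnectedSpace M] in
theorem lesB_cls {A : Set M} {q : ℕ} {g : List M → k} (hg : CocL (univ : Set M) q g) :
    lesB k (subset_univ A) q (absE k univ q (cls (tr M) (on k) g hg)) =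
      absE k A q (cls (tr M) (on k) g (hg.mono (subset_univ A))) := by
  change resR _ _ q (absE k univ q _) = _
  rw [absE_nat, res_cls]

/-- Every cocycle of `K` extends to `M`, up to a coboundary. -/
theorem exists_ext (h2 : (2 : k) ≠ 0) (hn : 1 ≤ n) (loc : LocEuc M n)
    (hw : CocL (univ : Set M) n w) (hw0 : ¬ ExL (univ : Set M) n w) (hδ : 0 < δ)
    (hb : ‖v‖ + δ ≤ 2) {q : ℕ} {f : List M → k} (hf : CocL (c.A1 v δ) q f) :
    ∃ g : List M → k, CocL (univ : Set M) q g ∧ ExL (c.A1 v δ) q fun l => f l - g l := by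
  have h0 : absE k (univ : Set M) n (cls (tr M) (on k) w hw) ≠ 0 := fun h =>
    hw0 (cls_eq_zero.1 ((LinearEquiv.map_eq_zero_iff _).1 h))
  obtain ⟨z, hz⟩ := lesB_surj (c := c) h2 hn loc h0 hδ hb q
    (absE k (c.A1 v δ) q (cls (tr M) (on k) f hf))
  obtain ⟨x, hx, rfl⟩ := H.exists_mk z
  rw [mk_eq_absE hx, lesB_cls] at hz
  exact ⟨toL x, cocL_toL hx, cls_eq_cls.1 ((absE k (c.A1 v δ) q).injective hz.symm)⟩

omit [ConnectedSpace M] in
/-- A cocycle of `M` of degree `≠ n` which is exact on `K` is exact. -/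
theorem exL_of_A1 (h2 : (2 : k) ≠ 0) (hδ : 0 < δ) (hb : ‖v‖ + δ ≤ 2) {q : ℕ} (hq : q ≠ n)
    {f : List M → k} (hf : CocL (univ : Set M) q f) (he : ExL (c.A1 v δ) q f) :
    ExL (univ : Set M) q f := by
  have h1 : lesB k (subset_univ (c.A1 v δ)) q (absE k univ q (cls (tr M) (on k) f hf)) = 0 := by
    rw [lesB_cls, cls_eq_zero.2 he, map_zero]
  exact cls_eq_zero.1 ((LinearEquiv.map_eq_zero_iff _).1 (lesB_inj (c := c) h2 hδ hb hq
    (h1.trans (map_zero _).symm)))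

/-- `H^n (K) = 0`. -/
theorem exL_A1_top (h2 : (2 : k) ≠ 0) (hn : 1 ≤ n) (loc : LocEuc M n)
    (hw : CocL (univ : Set M) n w) (hw0 : ¬ ExL (univ : Set M) n w) (hδ : 0 < δ)
    (hb : ‖v‖ + δ ≤ 2) {f : List M → k} (hf : CocL (c.A1 v δ) n f) : ExL (c.A1 v δ) n f := by
  have h0 : absE k (univ : Set M) n (cls (tr M) (on k) w hw) ≠ 0 := fun h =>
    hw0 (cls_eq_zero.1 ((LinearEquiv.map_eq_zero_iff _).1 h))
  exact cls_eq_zero.1 ((LinearEquiv.map_eq_zero_iff _).1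
    (noH_A1_top (c := c) h2 hn loc h0 hδ hb (absE k (c.A1 v δ) n (cls (tr M) (on k) f hf))))

/-- If `H^q (M) = 0` then `H^q (K) = 0`. -/
theorem null_A1 (h2 : (2 : k) ≠ 0) (hn : 1 ≤ n) (loc : LocEuc M n)
    (hw : CocL (univ : Set M) n w) (hw0 : ¬ ExL (univ : Set M) n w) (hδ : 0 < δ)
    (hb : ‖v‖ + δ ≤ 2) {q : ℕ} (h : ∀ g : List M → k, CocL (univ : Set M) q g →
      ExL (univ : Set M) q g) {f : List M → k} (hf : CocL (c.A1 v δ) q f) :
    ExL (c.A1 v δ) q f := by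
  obtain ⟨g, hg, hfg⟩ := exists_ext h2 hn loc hw hw0 hδ hb hf
  exact addL hfg ((h g hg).mono (subset_univ (c.A1 v δ))) fun l => by ring

/-- If `H^q (M)` is spanned by `x` then so is `H^q (K)`. -/
theorem line_A1 (h2 : (2 : k) ≠ 0) (hn : 1 ≤ n) (loc : LocEuc M n)
    (hw : CocL (univ : Set M) n w) (hw0 : ¬ ExL (univ : Set M) n w) (hδ : 0 < δ)
    (hb : ‖v‖ + δ ≤ 2) {q : ℕ} {x : List M → k} (h : ∀ g : List M → k, CocL (univ : Set M) q g →
      ∃ a : k, ExL (univ : Set M) q fun l => g l - a * x l) {f : List M → k}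
    (hf : CocL (c.A1 v δ) q f) : ∃ a : k, ExL (c.A1 v δ) q fun l => f l - a * x l := by
  obtain ⟨g, hg, hfg⟩ := exists_ext h2 hn loc hw hw0 hδ hb hf
  obtain ⟨a, ha⟩ := h g hg
  exact ⟨a, addL hfg (ha.mono (subset_univ (c.A1 v δ))) fun l => by ring⟩

end Vale.Agent.P216.H456D
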