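import Vale.Agent.P216.H456D.Base

/-!
# P216-D, block [KCOH] : degrees above the dimension, and connectedness of `M` minus an open box

* `noH_gt`: `H^m (M; k) = 0` for `m > n` (list form `exL_gt`);
* `noH_A1_gt`: `H^m (K; k) = 0` for `m > n` (list form `exL_A1_gt`);
* `const_A1`: for `n ≥ 2` the cocycles of degree `0` of `K` are constant; `isPreconnected_A1`.
-/

set_option linter.all false

open Set

namespace Vale.Agent.P216.H456D

open Vale.Agent.P216.AS Vale.Agent.P216.H901 Vale.Agent.P216.H83 Vale.Agent.P216.Sl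
  Vale.Agent.P216.PS Vale.Agent.P216.H133C Vale.Agent.P216.C313 Vale.Agent.P216.D246

variable {k : Type} [Field k]

theorem noH_cpt' (h2 : (2 : k) ≠ 0) {n : ℕ} {Y B : Set (Fin n → ℝ)}
    (hY : IsCompact Y) (hB : IsCompact B) (h : B ⊆ Y) {m : ℕ} (hm : n < m) (hm1 : 2 ≤ m) :
    NoH k Y B m := by
  obtain ⟨m, rfl⟩ : ∃ m', m = m' + 1 := ⟨m - 1, by omega⟩
  intro z
  have h1 : lesA k Y B (m + 1) z = 0 :=
    H670.Top0.top0Goal k h2 n Y hY (m + 1) (by omega) (by omega) _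
  obtain ⟨w, rfl⟩ := (les_ex3 k h m z).1 h1
  rw [show w = 0 from H670.Top0.top0Goal k h2 n B hB m (by omega) (by omega) w, map_zero]

variable {M : Type} [MetricSpace M] [CompactSpace M] {n : ℕ} {c : Cub M n}
  {v : Fin n → ℝ} {δ : ℝ}

theorem noH_Bx' (h2 : (2 : k) ≠ 0) (hδ : δ ≤ 2) {N : Set M} (hN : IsCompact N)
    (hND : N ⊆ c.Bx δ) {m : ℕ} (hm : n < m) (hm1 : 2 ≤ m) : NoH k (c.Bx δ) N m := by
  have cφ : ContinuousOn c.φ (c.Bx δ) := c.φ_cont.mono fun a ha => ha.1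
  have cI : IsCompact {u : Fin n → ℝ | ‖u‖ ≤ δ} := by
    have := isCompact_closedBall (0 : Fin n → ℝ) δ
    have e : {u : Fin n → ℝ | ‖u‖ ≤ δ} = Metric.closedBall 0 δ := by
      ext u
      simp
    rw [e]
    exact this
  have cψ : ContinuousOn c.ψ {u : Fin n → ℝ | ‖u‖ ≤ δ} := c.ψ_cont.mono fun u hu => le_trans hu hδ
  have hB : c.φ '' N ⊆ {u : Fin n → ℝ | ‖u‖ ≤ δ} := by
    rintro _ ⟨a, ha, rfl⟩
    exact (hND ha).2
  refine noH_of_inv (isMap_of Cub.compact_Bx cφ fun a ha => ha.2) (B := c.φ '' N)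
    (fun a ha => mem_image_of_mem _ ha) (isMap_of cI cψ fun u hu => ⟨c.ψ_mem _ (le_trans hu hδ),
      ?_⟩) ?_ hND hB (fun a ha => c.ψφ a ha.1) m
    (noH_cpt' h2 cI (hN.image_of_continuousOn (cφ.mono hND)) hB hm hm1)
  · rw [c.φψ u (le_trans hu hδ)]
    exact hu
  · rintro _ ⟨a, ha, rfl⟩
    rw [c.ψφ a (hND ha).1]
    exact ha

theorem noH_top' (h2 : (2 : k) ≠ 0) {L : Set M} (cL : IsCompact L) {m : ℕ} (hm : n < m)
    (hm1 : 2 ≤ m) : NoH k (univ : Set M) (c.A1 0 1 ∪ L) m := by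
  have cA : IsCompact (c.A1 0 1 ∪ L) :=
    (Cub.compact_A1 (by rw [norm_zero]; norm_num)).union cL
  refine noH_exc h2 cA (Cub.compact_Bx (c := c) (δ := 1)) ?_ rfl m
    (noH_Bx' h2 one_le_two (cA.inter Cub.compact_Bx) inter_subset_right hm hm1)
  ext a
  refine ⟨fun _ => ?_, fun _ => mem_univ _⟩
  by_cases h : a ∈ c.D ∧ ‖c.φ a‖ ≤ 1
  · exact Or.inr h
  · refine Or.inl (Or.inl fun hD => ?_)
    rw [sub_zero]
    by_contra hcon
    exact h ⟨hD, (not_le.1 hcon).le⟩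

/-- `H^m (M; k) = 0` for `m > n`. -/
theorem noH_gt (h2 : (2 : k) ≠ 0) (loc : LocEuc M n) {m : ℕ} (hm : n < m) :
    NoH k (univ : Set M) ∅ m := by
  classical
  have h01 : ‖(0 : Fin n → ℝ)‖ + 1 ≤ 2 := by rw [norm_zero]; norm_num
  choose C hC hC0 using loc
  have hcl : ∀ T : Finset M, IsCompact {a : M | ∀ b ∈ T, a ∈ (C b).A1 0 1} := by
    intro T
    have : {a : M | ∀ b ∈ T, a ∈ (C b).A1 0 1} = ⋂ b ∈ T, (C b).A1 0 1 := by
      ext a
      simp
    rw [this]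
    exact (isClosed_biInter fun b _ => (Cub.compact_A1 h01).isClosed).isCompact
  have key : ∀ T : Finset M, NoH k (univ : Set M) {a | ∀ b ∈ T, a ∈ (C b).A1 0 1} m := by
    intro T
    induction T using Finset.induction_on with
    | empty =>
      have e : {a : M | ∀ b ∈ (∅ : Finset M), a ∈ (C b).A1 0 1} = univ := by ext a; simp
      rw [e]
      exact noH_self _ _
    | insert b T hb ih =>
      have e : {a : M | ∀ d ∈ insert b T, a ∈ (C d).A1 0 1} =
          (C b).A1 0 1 ∩ {a | ∀ d ∈ T, a ∈ (C d).A1 0 1} := by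
        ext a
        simp
      rw [e]
      intro z
      obtain ⟨z1, z2, rfl⟩ := decomp h2 (Cub.compact_A1 (c := C b) h01) (hcl T) (subset_univ _)
        (subset_univ _) m (noH_top' h2 (hcl T) (by omega) (by omega)) z
      rw [show z1 = 0 from noH_rel_A1 h2 one_pos h01 (by omega) z1, show z2 = 0 from ih z2,
        map_zero, map_zero, add_zero]
  obtain ⟨T, hT⟩ := isCompact_univ.elim_nhds_subcover
    (fun b : M => {a | a ∈ (C b).D ∧ ‖(C b).φ a - 0‖ < 1}) fun b _ => by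
      refine (Cub.isOpen_box h01).mem_nhds ⟨hC b, ?_⟩
      rw [hC0, sub_zero, norm_zero]
      exact one_pos
  have hB : {a : M | ∀ b ∈ T, a ∈ (C b).A1 0 1} = (∅ : Set M) := by
    refine eq_empty_of_subset_empty fun a ha => ?_
    obtain ⟨b, hb, hb'⟩ := mem_iUnion₂.1 (hT.2 (mem_univ a))
    exact absurd (ha b hb hb'.1) (not_le.2 hb'.2)
  rw [← hB]
  exact key T

/-- Surjectivity of the restriction without orientation. -/
theorem lesB_surj' (h2 : (2 : k) ≠ 0) (hδ : 0 < δ) (hb : ‖v‖ + δ ≤ 2) {q : ℕ} (hq : q + 1 ≠ n) :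
    Function.Surjective (lesB k (subset_univ (c.A1 v δ)) q) := fun y =>
  (les_ex2 k (subset_univ (c.A1 v δ)) q y).1 (noH_rel_A1 h2 hδ hb hq _)

/-- `H^m (K; k) = 0` for `m > n`. -/
theorem noH_A1_gt (h2 : (2 : k) ≠ 0) (loc : LocEuc M n) (hδ : 0 < δ) (hb : ‖v‖ + δ ≤ 2) {m : ℕ}
    (hm : n < m) : NoH k (c.A1 v δ) ∅ m := by
  intro y
  obtain ⟨z, rfl⟩ := lesB_surj' (c := c) h2 hδ hb (by omega) y
  rw [show z = 0 from noH_gt h2 loc hm z, map_zero]

theorem exL_of_noH {X : Set M} {m : ℕ} (h : NoH k X ∅ m) {f : List M → k} (hf : CocL X m f) :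
    ExL X m f :=
  cls_eq_zero.1 ((LinearEquiv.map_eq_zero_iff _).1 (h (absE k X m (cls (tr M) (on k) f hf))))

theorem exL_gt (h2 : (2 : k) ≠ 0) (loc : LocEuc M n) {m : ℕ} (hm : n < m) {f : List M → k}
    (hf : CocL (univ : Set M) m f) : ExL (univ : Set M) m f := exL_of_noH (noH_gt h2 loc hm) hf

theorem exL_A1_gt (h2 : (2 : k) ≠ 0) (loc : LocEuc M n) (hδ : 0 < δ) (hb : ‖v‖ + δ ≤ 2) {m : ℕ}
    (hm : n < m) {f : List M → k} (hf : CocL (c.A1 v δ) m f) : ExL (c.A1 v δ) m f :=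
  exL_of_noH (noH_A1_gt h2 loc hδ hb hm) hf

/-- Extension of cocycles in the degrees `≠ n - 1`. -/
theorem exists_ext' (h2 : (2 : k) ≠ 0) (hδ : 0 < δ)
    (hb : ‖v‖ + δ ≤ 2) {q : ℕ} (hq : q + 1 ≠ n) {f : List M → k} (hf : CocL (c.A1 v δ) q f) :
    ∃ g : List M → k, CocL (univ : Set M) q g ∧ ExL (c.A1 v δ) q fun l => f l - g l := by
  obtain ⟨z, hz⟩ := lesB_surj' (c := c) h2 hδ hb hq
    (absE k (c.A1 v δ) q (cls (tr M) (on k) f hf))
  obtain ⟨x, hx, rfl⟩ := H.exists_mk z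
  rw [mk_eq_absE hx, lesB_cls] at hz
  exact ⟨toL x, cocL_toL hx, cls_eq_cls.1 ((absE k (c.A1 v δ) q).injective hz.symm)⟩

omit [CompactSpace M] in
theorem cocL_zero {X : Set M} {f : List M → k} (hf : CocL X 0 f) :
    ∃ ε > 0, ∀ x ∈ X, ∀ y ∈ X, dist x y < ε → f [x] = f [y] := by
  obtain ⟨ε, hε, h⟩ := hf
  refine ⟨ε, hε, fun x hx y hy hxy => ?_⟩
  have h1 := h [x, y] rfl ⟨fun z hz => ?_, fun z hz z' hz' => ?_⟩
  · rw [dl_cons, dl_one] at h1
    exact (sub_eq_zero.1 h1).symm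
  · rcases List.mem_pair.1 hz with rfl | rfl
    exacts [hx, hy]
  · rcases List.mem_pair.1 hz with rfl | rfl <;> rcases List.mem_pair.1 hz' with rfl | rfl
    · rw [dist_self]; exact hε
    · exact hxy
    · rw [dist_comm]; exact hxy
    · rw [dist_self]; exact hε

variable [PreconnectedSpace M]

/-- `H^0 (K) = k` for `n ≥ 2`. -/
theorem const_A1 (h2 : (2 : k) ≠ 0) (hn : 2 ≤ n) (hδ : 0 < δ) (hb : ‖v‖ + δ ≤ 2) {f : List M → k}
    (hf : CocL (c.A1 v δ) 0 f) : ∀ x ∈ c.A1 v δ, ∀ y ∈ c.A1 v δ, f [x] = f [y] := by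
  obtain ⟨g, hg, s, hs0, ε, hε, hs⟩ := exists_ext' (c := c) h2 hδ hb (by omega) hf
  obtain ⟨ε', hε', hg⟩ := cocL_zero hg
  have hc : ∀ x y : M, g [x] = g [y] := by
    have : IsLocallyConstant fun x : M => g [x] := by
      rw [IsLocallyConstant.iff_eventually_eq]
      intro x
      filter_upwards [Metric.ball_mem_nhds x hε'] with y hy
      exact hg y (mem_univ _) x (mem_univ _) hy
    exact fun x y => this.apply_eq_of_preconnectedSpace x y
  have hfg : ∀ x ∈ c.A1 v δ, f [x] = g [x] := by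
    intro x hx
    have h1 := hs [x] rfl ⟨fun z hz => by rw [List.mem_singleton.1 hz]; exact hx,
      fun z hz z' hz' => by
        rw [List.mem_singleton.1 hz, List.mem_singleton.1 hz', dist_self]; exact hε⟩
    rw [dl_one, hs0 rfl] at h1
    exact sub_eq_zero.1 h1
  intro x hx y hy
  rw [hfg x hx, hfg y hy, hc x y]

/-- `K` is connected for `n ≥ 2`. -/
theorem isPreconnected_A1 (k : Type) [Field k] (h2 : (2 : k) ≠ 0) (hn : 2 ≤ n) (hδ : 0 < δ)
    (hb : ‖v‖ + δ ≤ 2) : IsPreconnected (c.A1 v δ) := by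
  classical
  rw [isPreconnected_closed_iff]
  intro t t' ct ct' hsub ⟨x, hx, hxt⟩ ⟨y, hy, hyt⟩
  by_contra hcon
  rw [not_nonempty_iff_eq_empty] at hcon
  have cK : IsCompact (c.A1 v δ) := Cub.compact_A1 hb
  have hd : Disjoint (c.A1 v δ ∩ t) (c.A1 v δ ∩ t') := by
    rw [Set.disjoint_iff_inter_eq_empty]
    refine eq_empty_of_subset_empty fun z hz => ?_
    rw [← hcon]
    exact ⟨hz.1.1, hz.1.2, hz.2.2⟩
  obtain ⟨ε, hε, hε2⟩ := hd.exists_thickenings (cK.inter_right ct) (cK.isClosed.inter ct')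
  have hfar : ∀ a ∈ c.A1 v δ ∩ t, ∀ b ∈ c.A1 v δ ∩ t', ¬ dist a b < ε := by
    intro a ha b hb' hab
    refine Set.disjoint_left.1 hε2 (Metric.self_subset_thickening hε _ ha) ?_
    exact Metric.mem_thickening_iff.2 ⟨b, hb', hab⟩
  have hf : CocL (k := k) (c.A1 v δ) 0 fun l => if ∀ z ∈ l, z ∈ t then 1 else 0 := by
    refine ⟨ε, hε, fun l hl hs => ?_⟩
    obtain ⟨a, b, rfl⟩ := List.length_eq_two.1 hl
    rw [dl_cons, dl_one]
    have ha := hs.1 a (by simp)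
    have hb' := hs.1 b (by simp)
    have hab := hs.2 a (by simp) b (by simp)
    have hiff : a ∈ t ↔ b ∈ t := by
      constructor
      · intro h
        rcases hsub hb' with h' | h'
        · exact h'
        · exact absurd hab (hfar a ⟨ha, h⟩ b ⟨hb', h'⟩)
      · intro h
        rcases hsub ha with h' | h'
        · exact h'
        · rw [dist_comm] at hab
          exact absurd hab (hfar b ⟨hb', h⟩ a ⟨ha, h'⟩)
    simp [hiff]
  have h1 := const_A1 (k := k) h2 hn hδ hb hf x hx y hy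
  have hyn : y ∉ t := fun h => by
    have : y ∈ (∅ : Set M) := hcon ▸ ⟨hy, h, hyt⟩
    exact this
  simp [hxt, hyn] at h1

end Vale.Agent.P216.H456D
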