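import Vale.Agent.P216.H456D.Base2

/-!
# P216-D, block [KCOH] : the complement of a small box around a point, all facts in one statement

`exists_K`: `M` compact connected, locally euclidean of dimension `n ≥ 2`, `p ∈ M`, `ε > 0`: there
are `K` compact and `r > 0` with `{ε ≤ dist p} ⊆ K ⊆ {r ≤ dist p}` and `KCoh M n K` (`K` and `r` do
not depend on the field).
-/

set_option linter.all false

open Set

namespace Vale.Agent.P216.H456D

open Vale.Agent.P216.AS Vale.Agent.P216.H901 Vale.Agent.P216.H83 Vale.Agent.P216.Sl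
  Vale.Agent.P216.PS Vale.Agent.P216.H133C Vale.Agent.P216.C313 Vale.Agent.P216.D246

/-- The cohomological properties of `K = M ∖ open box`. -/
structure KCoh (M : Type) [MetricSpace M] (n : ℕ) (K : Set M) : Prop where
  compact : IsCompact K
  preconn : IsPreconnected K
  /-- `H^0 (K) = k` -/
  const : ∀ (k : Type) [Field k], (2 : k) ≠ 0 → ∀ f : List M → k, CocL K 0 f →
    ∀ x ∈ K, ∀ y ∈ K, f [x] = f [y]
  /-- `H^m (K) = 0` for `m > n` -/
  gt : ∀ (k : Type) [Field k], (2 : k) ≠ 0 → ∀ m, n < m → ∀ f : List M → k, CocL K m f → ExL K m f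
  /-- `H^n (K) = 0` -/
  top : ∀ (k : Type) [Field k], (2 : k) ≠ 0 → ∀ w : List M → k, CocL (univ : Set M) n w →
    ¬ ExL (univ : Set M) n w → ∀ f : List M → k, CocL K n f → ExL K n f
  /-- `H^q (M) → H^q (K)` is onto -/
  ext : ∀ (k : Type) [Field k], (2 : k) ≠ 0 → ∀ w : List M → k, CocL (univ : Set M) n w →
    ¬ ExL (univ : Set M) n w → ∀ (q : ℕ) (f : List M → k), CocL K q f →
      ∃ g : List M → k, CocL (univ : Set M) q g ∧ ExL K q fun l => f l - g l
  /-- `H^q (M) → H^q (K)` is injective for `q ≠ n` -/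
  inj : ∀ (k : Type) [Field k], (2 : k) ≠ 0 → ∀ q ≠ n, ∀ f : List M → k,
    CocL (univ : Set M) q f → ExL K q f → ExL (univ : Set M) q f

variable {M : Type} [MetricSpace M] [CompactSpace M] [ConnectedSpace M] {n : ℕ}

theorem kCoh_A1 (hn : 2 ≤ n) (loc : LocEuc M n) (c : Cub M n) {v : Fin n → ℝ} {δ : ℝ}
    (hδ : 0 < δ) (hb : ‖v‖ + δ ≤ 2) : KCoh M n (c.A1 v δ) where
  compact := Cub.compact_A1 hb
  preconn := isPreconnected_A1 ℚ (by norm_num) hn hδ hb
  const k _ h2 f hf := const_A1 h2 hn hδ hb hf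
  gt k _ h2 m hm f hf := exL_A1_gt h2 loc hδ hb hm hf
  top k _ h2 w hw hw0 f hf := exL_A1_top h2 (by omega) loc hw hw0 hδ hb hf
  ext k _ h2 w hw hw0 q f hf := exists_ext h2 (by omega) loc hw hw0 hδ hb hf
  inj k _ h2 q hq f hf he := exL_of_A1 h2 hδ hb hq hf he

/-- If `H^q (M) = 0` then `H^q (K) = 0`. -/
theorem KCoh.null {K : Set M} (h : KCoh M n K) {k : Type} [Field k] (h2 : (2 : k) ≠ 0)
    {w : List M → k} (hw : CocL (univ : Set M) n w) (hw0 : ¬ ExL (univ : Set M) n w) {q : ℕ}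
    (hq : ∀ g : List M → k, CocL (univ : Set M) q g → ExL (univ : Set M) q g) {f : List M → k}
    (hf : CocL K q f) : ExL K q f := by
  obtain ⟨g, hg, hfg⟩ := h.ext k h2 w hw hw0 q f hf
  exact addL hfg ((hq g hg).mono (subset_univ K)) fun l => by ring

/-- If `H^q (M)` is spanned by `x` then so is `H^q (K)`. -/
theorem KCoh.line {K : Set M} (h : KCoh M n K) {k : Type} [Field k] (h2 : (2 : k) ≠ 0)
    {w : List M → k} (hw : CocL (univ : Set M) n w) (hw0 : ¬ ExL (univ : Set M) n w) {q : ℕ}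
    {x : List M → k} (hq : ∀ g : List M → k, CocL (univ : Set M) q g →
      ∃ a : k, ExL (univ : Set M) q fun l => g l - a * x l) {f : List M → k} (hf : CocL K q f) :
    ∃ a : k, ExL K q fun l => f l - a * x l := by
  obtain ⟨g, hg, hfg⟩ := h.ext k h2 w hw hw0 q f hf
  obtain ⟨a, ha⟩ := hq g hg
  exact ⟨a, addL hfg (ha.mono (subset_univ K)) fun l => by ring⟩

/-- **[KCOH]** -/
theorem exists_K (hn : 2 ≤ n) (loc : LocEuc M n) (p : M) {ε : ℝ} (hε : 0 < ε) :
    ∃ (K : Set M) (r : ℝ), 0 < r ∧ KCoh M n K ∧ (∀ x ∈ K, r ≤ dist p x) ∧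
      ∀ x, ε ≤ dist p x → x ∈ K := by
  obtain ⟨c, hc, hc0⟩ := loc p
  have h0 : ‖(0 : Fin n → ℝ)‖ ≤ 2 := by rw [norm_zero]; exact zero_le_two
  have hψ0 : c.ψ 0 = p := by rw [← hc0]; exact c.ψφ p hc
  obtain ⟨δ, hδ, hδ'⟩ := Metric.continuousWithinAt_iff.1 (c.ψ_cont 0 h0) ε hε
  have hb : ‖(0 : Fin n → ℝ)‖ + min δ 1 ≤ 2 := by
    rw [norm_zero, zero_add]
    exact (min_le_right _ _).trans one_le_two
  have hm : 0 < min δ 1 := lt_min hδ one_pos
  have ho := Cub.isOpen_box (c := c) hb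
  have hp : p ∈ {a | a ∈ c.D ∧ ‖c.φ a - 0‖ < min δ 1} := by
    refine ⟨hc, ?_⟩
    rw [hc0, sub_zero, norm_zero]
    exact hm
  obtain ⟨r, hr, hr'⟩ := Metric.isOpen_iff.1 ho p hp
  refine ⟨c.A1 0 (min δ 1), r, hr, kCoh_A1 hn loc c hm hb, fun x hx => ?_, fun x hx hD => ?_⟩
  · by_contra hcon
    rw [not_le, dist_comm] at hcon
    have h1 := hr' (Metric.mem_ball.2 hcon)
    exact absurd (hx h1.1) (not_le.2 h1.2)
  · by_contra hcon
    rw [not_le, sub_zero] at hcon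
    have h1 := hδ' (c.φ_le x hD) (by
      rw [dist_zero_right]
      exact hcon.trans_le (min_le_left _ _))
    rw [hψ0, c.ψφ x hD, dist_comm] at h1
    exact absurd hx (not_le.2 h1)

end Vale.Agent.P216.H456D
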