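import Vale.Agent.P216.H977C.MkDefs
import Vale.Agent.P216.H934D.Bridge

/-!
# P216-D, block MID, [BASE-EX], second half
-/

set_option linter.all false

open Set

namespace Vale.Agent.P216.H456D

open Vale.Agent.P216.Sl Vale.Agent.P216.PS Vale.Agent.P216.E2L Vale.Agent.P216.H977C
open Vale.Agent.P216.H977C.K3 (rc rc_short dl_rc nrm_rc rc_cup)
open Vale.Agent.P216.H934D (BaseK pw_succ_right pw_cocL pw_Nrm)
open Vale.Agent.P216.H133C (pw)
open Vale.Agent.P216.N929 (Coc)

section

variable {k M : Type} [Field k] [MetricSpace M] {d h : ℕ}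

/-- Kill the value at the empty list. -/
def kzB (g : List M → k) (l : List M) : k := if l.length = 0 then 0 else g l

theorem kzB_nil (g : List M → k) : kzB g [] = 0 := if_pos rfl

theorem dl_kzB (g : List M → k) {l : List M} (h : 2 ≤ l.length) : dl (kzB g) l = dl g l :=
  dl_congr fun l' h1 _ => if_neg (by omega)

theorem nrm_kzB {g : List M → k} (hg : Nrm g) : Nrm (kzB g) := fun l hl => by
  unfold kzB
  split_ifs
  · rfl
  · exact hg l hl

/-- The cup product on the right with a cocycle. -/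
theorem dl_rc_coc {ξ c : List M → k} {ε : ℝ} (hξ : Coc (univ : Set M) ε d ξ) (hc : c [] = 0)
    {l : List M} (hs : SmL (univ : Set M) ε l) : dl (rc d id c ξ) l = rc d id (dl c) ξ l := by
  rw [dl_rc d id hc ξ l]
  have : rc (d + 1) id c (dl ξ) l = 0 := by
    rcases Nat.lt_or_ge l.length (d + 2) with h | h
    · exact rc_short id hc _ (by omega)
    · unfold rc
      rw [hξ _ (by rw [List.length_drop]; omega) ⟨fun _ _ => mem_univ _, fun x hx y hy =>
        hs.2 x (List.mem_of_mem_drop hx) y (List.mem_of_mem_drop hy)⟩, mul_zero]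
  rw [this, mul_zero, add_zero]

theorem rc_right_smul (κ : k) (c g : List M → k) (l : List M) :
    rc d id c (fun l => κ * g l) l = κ * rc d id c g l := by
  unfold rc
  ring

/-- `ξ^i ∪ ξ = ξ^(i + 1)` -/
theorem rc_pw (ξ : List M → k) {i : ℕ} {l : List M} (hl : l.length = d * (i + 1) + 1) :
    rc d id (pw ξ d i) ξ l = pw ξ d (i + 1) l := by
  have e1 : d * (i + 1) = d * i + d := by ring
  rw [pw_succ_right ξ d i l hl]
  unfold rc
  rw [List.map_id, show l.length - d = d * i + 1 by omega, show d * i + 1 - 1 = d * i by omega]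

/-- **[BASE-EX], (B)**. -/
theorem partB (hd : 2 ≤ d) (B : BaseK k M d h) {q : ℕ} (hq : d - 1 < q)
    (hq' : q + 2 < d * (h + 1)) {κ : k} (hκ : κ * κ = 1) {a c c' : List M → k} (na : Nrm a)
    (c0' : c' [] = 0) (nc' : Nrm c')
    (hA : ∃ r > 0, ∀ ys, ys.length = q + 3 → SmL (univ : Set M) r ys →
      dl a ys + (-1 : k) ^ (ys.length - (d - 1)) *
        rc (d - 1 + 1) id c (fun l => κ * B.ξ l) ys = 0)
    (hC : ∃ r > 0, ∀ ys, ys.length = q + 2 - (d - 1) → SmL (univ : Set M) r ys →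
      c ys = -dl c' ys) :
    ∃ a₁ c₁ : List M → k, a₁ [] = 0 ∧ c₁ [] = 0 ∧ Nrm a₁ ∧ Nrm c₁ ∧
      ∃ r > 0, (∀ ys, ys.length = q + 2 → SmL (univ : Set M) r ys →
        a ys = -(dl a₁ ys + (-1 : k) ^ (ys.length - (d - 1)) *
          rc (d - 1 + 1) id c₁ (fun l => κ * B.ξ l) ys)) ∧
      ∀ ys, ys.length = q + 2 - (d - 1) → SmL (univ : Set M) r ys → c ys = -dl c₁ ys := by
  have hd1 : d - 1 + 1 = d := by omega
  rw [hd1] at hA ⊢
  set s : k := (-1 : k) ^ (q + 2 - d) with hs
  have hs1 : (-1 : k) ^ (q + 3 - (d - 1)) = s := by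
    rw [hs, show q + 3 - (d - 1) = (q + 2 - d) + 2 by omega, pow_add]
    simp
  have hs2 : (-1 : k) ^ (q + 2 - (d - 1)) = -s := by
    rw [hs, show q + 2 - (d - 1) = (q + 2 - d) + 1 by omega, pow_succ]
    ring
  have hss : s * s = 1 := by rw [hs, ← mul_pow]; simp
  have hξκ : Coc (univ : Set M) B.ε d fun l => κ * B.ξ l := fun l hl hf => by
    rw [dl_mul_left, B.cξ l hl hf, mul_zero]
  have nκ : Nrm fun l => κ * B.ξ l := B.nξ.smul κ
  obtain ⟨r₁, hr₁, hA⟩ := hA
  -- `b = a - s c₁ ∪ ξ` is closed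
  have key : ∀ c₁ : List M → k, c₁ [] = 0 → (∃ r > 0, ∀ ys, ys.length = q + 2 - (d - 1) →
      SmL (univ : Set M) r ys → c ys = -dl c₁ ys) → CocL (univ : Set M) (q + 1)
        fun l => a l - s * rc d id c₁ (fun l => κ * B.ξ l) l := by
    rintro c₁ c10 ⟨r₂, hr₂, hC₁⟩
    refine ⟨min B.ε (min r₁ r₂), lt_min B.hε (lt_min hr₁ hr₂), fun l hl hsm => ?_⟩
    have e1 := hA l hl (hsm.mono subset_rfl ((min_le_right _ _).trans (min_le_left _ _)))
    have e2 := E2L.dl_sub a (fun l => s * rc d id c₁ (fun l => κ * B.ξ l) l) l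
    have e3 : rc d id (dl c₁) (fun l => κ * B.ξ l) l = -rc d id c (fun l => κ * B.ξ l) l := by
      unfold rc
      rw [List.map_id, hC₁ (l.take (l.length - d)) (by rw [List.length_take]; omega)
        ⟨fun _ _ => mem_univ _, fun x hx y hy => (hsm.2 x (List.mem_of_mem_take hx) y
          (List.mem_of_mem_take hy)).trans_le ((min_le_right _ _).trans (min_le_right _ _))⟩]
      ring
    rw [hl, hs1] at e1
    rw [e2, dl_mul_left, dl_rc_coc hξκ c10 (hsm.mono subset_rfl (min_le_left _ _)), e3]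
    linear_combination e1
  -- the correction of `c'`
  obtain ⟨c₁, c10, nc₁, hC₁, hex⟩ : ∃ c₁ : List M → k, c₁ [] = 0 ∧ Nrm c₁ ∧
      (∃ r > 0, ∀ ys, ys.length = q + 2 - (d - 1) → SmL (univ : Set M) r ys →
        c ys = -dl c₁ ys) ∧ ExL (univ : Set M) (q + 1)
          fun l => a l - s * rc d id c₁ (fun l => κ * B.ξ l) l := by
    by_cases hj : ∃ j ≤ h, q + 1 = d * j
    · obtain ⟨j, hjh, hqj⟩ := hj
      obtain ⟨i, rfl⟩ : ∃ i, j = i + 1 := by
        refine ⟨j - 1, ?_⟩
        rcases j with _ | j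
        · simp at hqj
        · omega
      have hdi : d * (i + 1) = d * i + d := by ring
      have hi : 1 ≤ d * i := by omega
      obtain ⟨μ, hμ⟩ := B.line (i + 1) hjh _ (hqj ▸ key c' c0' hC)
      rw [← hqj] at hμ
      refine ⟨fun l => c' l + s * κ * μ * kzB (pw B.ξ d i) l, ?_, ?_, ?_, ?_⟩
      · show c' [] + s * κ * μ * kzB (pw B.ξ d i) [] = 0
        rw [c0', kzB_nil, mul_zero, add_zero]
      · exact nc'.add ((nrm_kzB (pw_Nrm B.nξ i)).smul _)
      · obtain ⟨r₂, hr₂, hC⟩ := hC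
        obtain ⟨r₃, hr₃, hP⟩ := pw_cocL B.hε B.cξ i
        refine ⟨min r₂ r₃, lt_min hr₂ hr₃, fun ys hys hsm => ?_⟩
        have e1 := hC ys hys (hsm.mono subset_rfl (min_le_left _ _))
        have e2 := hP ys (by omega) (hsm.mono subset_rfl (min_le_right _ _))
        rw [Sl.dl_add c' (fun l => s * κ * μ * kzB (pw B.ξ d i) l), dl_mul_left,
          dl_kzB _ (by omega), e2, mul_zero, add_zero, e1]
      · obtain ⟨g, hg0, r₂, hr₂, hg⟩ := hμ
        refine ⟨g, hg0, r₂, hr₂, fun l hl hsm => ?_⟩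
        have e1 := hg l hl hsm
        have e2 : rc d id (fun l => c' l + s * κ * μ * kzB (pw B.ξ d i) l)
            (fun l => κ * B.ξ l) l = rc d id c' (fun l => κ * B.ξ l) l +
              s * κ * μ * (κ * pw B.ξ d (i + 1) l) := by
          have e3 := rc_pw B.ξ (i := i) (d := d) (l := l) (by omega)
          have e4 : kzB (pw B.ξ d i) ((l.take (l.length - d)).map id) =
              pw B.ξ d i ((l.take (l.length - d)).map id) :=
            if_neg (by rw [List.length_map, List.length_take]; omega)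
          rw [← e3]
          unfold rc
          beta_reduce
          rw [e4]
          ring
        show a l - s * rc d id (fun l => c' l + s * κ * μ * kzB (pw B.ξ d i) l)
            (fun l => κ * B.ξ l) l = dl g l
        rw [e2, ← e1]
        beta_reduce
        linear_combination (-(κ * κ * μ * pw B.ξ d (i + 1) l)) * hss -
          (μ * pw B.ξ d (i + 1) l) * hκ
    · exact ⟨c', c0', nc', hC, B.zero (q + 1) (fun j hjh h1 => hj ⟨j, hjh, h1⟩) _
        (key c' c0' hC)⟩
  -- the conclusion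
  have nb : Nrm fun l => a l - s * rc d id c₁ (fun l => κ * B.ξ l) l :=
    na.sub ((nrm_rc d c10 nc₁ nκ).smul s)
  obtain ⟨g, ng, -, r₂, hr₂, hg⟩ := nrm_prim nb (key c₁ c10 hC₁) hex
  obtain ⟨r₃, hr₃, hC₁⟩ := hC₁
  refine ⟨fun l => (-1) * kzB g l, c₁, by show (-1 : k) * kzB g [] = 0; rw [kzB_nil, mul_zero],
    c10, (nrm_kzB ng).smul _, nc₁, min r₂ r₃, lt_min hr₂ hr₃, fun ys hys hsm => ?_,
    fun ys hys hsm => hC₁ ys hys (hsm.mono subset_rfl (min_le_right _ _))⟩
  have e1 := hg ys hys (hsm.mono subset_rfl (min_le_left _ _))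
  rw [dl_mul_left, dl_kzB _ (by omega), hys, hs2, ← e1]
  ring

end

end Vale.Agent.P216.H456D
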