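import Vale.Agent.P216.D246.Span2

/-!
# P216-D, block [DIM], part 1: boxes and their transition numbers

`Box M n`: a box of a chart. `Box.A`: its closed complement; `H^n (M, B.A)` is a line.
`box_res_bij`: for boxes `B ⊆ B'` (of any charts) `H^n (M, B.A) → H^n (M, B'.A)` is bijective.
`tn B B'`: the transition number.
-/

set_option linter.all false

open Set Filter Topology

namespace Vale.Agent.P216.H456D

open Vale.Agent.P216.AS Vale.Agent.P216.H901 Vale.Agent.P216.H83 Vale.Agent.P216.H133C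
  Vale.Agent.P216.C313 Vale.Agent.P216.D246

/-- A box of a chart. -/
structure Box (M : Type) [TopologicalSpace M] (n : ℕ) where
  c : Cub M n
  v : Fin n → ℝ
  δ : ℝ
  hδ : 0 < δ
  hb : ‖v‖ + δ ≤ 2

variable {M : Type} [MetricSpace M] {n : ℕ}

/-- `M` minus the open box. -/
def Box.A (B : Box M n) : Set M := B.c.A1 B.v B.δ

/-- The centre. -/
def Box.p (B : Box M n) : M := B.c.ψ B.v

theorem Box.v_le (B : Box M n) : ‖B.v‖ ≤ 2 := by
  have := B.hδ
  have := B.hb
  linarith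

theorem Box.p_notMem (B : Box M n) : B.p ∉ B.A := by
  intro h
  have h1 : B.δ ≤ ‖B.c.φ (B.c.ψ B.v) - B.v‖ := h (B.c.ψ_mem _ B.v_le)
  rw [B.c.φψ _ B.v_le, sub_self, norm_zero] at h1
  exact absurd h1 (not_le.2 B.hδ)

variable [CompactSpace M] {k : Type} [Field k]

theorem Box.isCompact_A (B : Box M n) : IsCompact B.A := Cub.compact_A1 B.hb

theorem Box.isOpen_U (B : Box M n) : IsOpen B.Aᶜ := B.isCompact_A.isClosed.isOpen_compl

/-- Every neighbourhood of a point of the interior of a chart contains a small box. -/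
theorem exists_box_in {U : Set M} (hU : IsOpen U) {b : M} (hbU : b ∈ U) {c : Cub M n}
    (hc : b ∈ c.D) (hc' : ‖c.φ b‖ < 2) : ∃ B : Box M n, B.c = c ∧ b ∉ B.A ∧ Uᶜ ⊆ B.A := by
  have h2 : U ∈ 𝓝 (c.ψ (c.φ b)) := by
    rw [c.ψφ b hc]
    exact hU.mem_nhds hbU
  have h3 := (c.ψ_cont (c.φ b) hc'.le) h2
  rw [mem_map, mem_nhdsWithin_iff_exists_mem_nhds_inter] at h3
  obtain ⟨V, hV, hV'⟩ := h3
  obtain ⟨η, hη, hη'⟩ := Metric.mem_nhds_iff.1 hV
  have hm : 0 < min η (2 - ‖c.φ b‖) := lt_min hη (by linarith)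
  refine ⟨⟨c, c.φ b, min η (2 - ‖c.φ b‖), hm, ?_⟩, rfl, ?_, ?_⟩
  · have := min_le_right η (2 - ‖c.φ b‖)
    linarith
  · intro h
    have h1 := h hc
    rw [sub_self, norm_zero] at h1
    exact absurd h1 (not_le.2 hm)
  · intro a ha haD
    by_contra hcon
    rw [not_le] at hcon
    have h4 : c.φ a ∈ Metric.ball (c.φ b) η := by
      rw [Metric.mem_ball, dist_eq_norm]
      exact hcon.trans_le (min_le_left _ _)
    have h5 := hV' ⟨hη' h4, c.φ_le a haD⟩
    have h6 : c.ψ (c.φ a) ∈ U := h5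
    rw [c.ψφ a haD] at h6
    exact ha h6

/-- The interior of a box lies in the interior of its chart. -/
theorem Box.mem_int {B : Box M n} {b : M} (hb : b ∉ B.A) : b ∈ B.c.D ∧ ‖B.c.φ b‖ < 2 := by
  simp only [Box.A, Cub.A1, mem_ofPred_eq, not_forall, not_le] at hb
  obtain ⟨h1, h3⟩ := hb
  refine ⟨h1, ?_⟩
  have h4 := norm_sub_norm_le (B.c.φ b) B.v
  have h5 := B.hb
  linarith

/-- Same chart. -/
theorem box_res_same (h2 : (2 : k) ≠ 0) {B B' : Box M n} (hc : B.c = B'.c) (h : B.A ⊆ B'.A) :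
    Function.Bijective (resR (k := k) (χ := on k) (a := tr M) (subset_rfl : (univ : Set M) ⊆ univ)
      h n : Hr (tr M) (on k) univ B'.A n →ₗ[k] Hr (tr M) (on k) univ B.A n) := by
  obtain ⟨c, v, δ, hδ, hb⟩ := B
  obtain ⟨c', v', δ', hδ', hb'⟩ := B'
  obtain rfl : c = c' := hc
  have h02 : ‖(0 : Fin n → ℝ)‖ + 2 ≤ 2 := by rw [norm_zero]; norm_num
  -- both are compared with the box `(0, 2)`
  have key : ∀ (w : Fin n → ℝ) (η : ℝ) (hη : 0 < η) (hw : ‖w‖ + η ≤ 2)
      (hs : c.A1 0 2 ⊆ c.A1 w η), Function.Bijective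
      (resR (k := k) (χ := on k) (a := tr M) (subset_rfl : (univ : Set M) ⊆ univ) hs n :
        Hr (tr M) (on k) univ (c.A1 w η) n →ₗ[k] Hr (tr M) (on k) univ (c.A1 0 2) n) := by
    intro w η hη hw hs
    have hv : ‖w - 0‖ + η ≤ 2 := by rwa [sub_zero]
    have e := Cub.th_res (k := k) (c := c) hη hv h02 zero_le_two hw n
    have h1 := Cub.th_bij (k := k) (c := c) h2 hη hw n
    have h3 := Cub.th_bij (k := k) (c := c) h2 two_pos h02 n
    have e2 : (pullR (on k) (Cub.isMap_th hη.le hw) bdE_sub (Cub.mapsTo_th hη.le hw) n : _ → _) =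
        (pullR (on k) (Cub.isMap_th (c := c) zero_le_two h02) bdE_sub
          (Cub.mapsTo_th zero_le_two h02) n) ∘ (resR (k := k) (χ := on k) (a := tr M)
            (subset_rfl : (univ : Set M) ⊆ univ) hs n) := funext fun x => (e x).symm
    rw [e2] at h1
    exact (Function.Bijective.of_comp_iff' h3 _).1 h1
  have s0 : ∀ (w : Fin n → ℝ) (η : ℝ), ‖w‖ + η ≤ 2 → c.A1 0 2 ⊆ c.A1 w η := fun w η hw =>
    Cub.A1_anti (by rwa [sub_zero])
  have k1 := key v δ hδ hb (s0 v δ hb)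
  have k2 := key v' δ' hδ' hb' (s0 v' δ' hb')
  have e3 : (resR (k := k) (χ := on k) (a := tr M) (subset_rfl : (univ : Set M) ⊆ univ)
      (s0 v' δ' hb') n : Hr (tr M) (on k) univ (c.A1 v' δ') n → _) =
      (resR (k := k) (χ := on k) (a := tr M) (subset_rfl : (univ : Set M) ⊆ univ)
        (s0 v δ hb) n) ∘ (resR (k := k) (χ := on k) (a := tr M)
          (subset_rfl : (univ : Set M) ⊆ univ) h n) := by
    funext x
    obtain ⟨f, hf, rfl⟩ := H.exists_mk x
    rfl
  rw [e3] at k2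
  exact (Function.Bijective.of_comp_iff' k1 _).1 k2

/-- **Box inclusions.** -/
theorem box_res_bij (h2 : (2 : k) ≠ 0) {B B' : Box M n} (h : B.A ⊆ B'.A) :
    Function.Bijective (resR (k := k) (χ := on k) (a := tr M) (subset_rfl : (univ : Set M) ⊆ univ)
      h n : Hr (tr M) (on k) univ B'.A n →ₗ[k] Hr (tr M) (on k) univ B.A n) := by
  have hp' : B'.p ∉ B'.A := B'.p_notMem
  have hp : B'.p ∉ B.A := fun hh => hp' (h hh)
  obtain ⟨hD, hn2⟩ := Box.mem_int hp
  -- a box `B₁` of the chart of `B` in `B'`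
  obtain ⟨B₁, hc₁, hb₁, hs₁⟩ := exists_box_in B'.isOpen_U hp' hD hn2
  -- a box `B₂` of the chart of `B'` in `B₁`
  obtain ⟨hD', hn2'⟩ := Box.mem_int hp'
  obtain ⟨B₂, hc₂, hb₂, hs₂⟩ := exists_box_in B₁.isOpen_U hb₁ hD' hn2'
  rw [compl_compl] at hs₁ hs₂
  have k1 := box_res_same (k := k) h2 hc₁.symm (h.trans hs₁)
  have k2 := box_res_same (k := k) h2 hc₂.symm (hs₁.trans hs₂)
  have e1 : (resR (k := k) (χ := on k) (a := tr M) (subset_rfl : (univ : Set M) ⊆ univ)
      (h.trans hs₁) n : Hr (tr M) (on k) univ B₁.A n → Hr (tr M) (on k) univ B.A n) =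
      (resR (k := k) (χ := on k) (a := tr M) (subset_rfl : (univ : Set M) ⊆ univ) h n) ∘
        (resR (k := k) (χ := on k) (a := tr M) (subset_rfl : (univ : Set M) ⊆ univ) hs₁ n) := by
    funext x
    obtain ⟨f, hf, rfl⟩ := H.exists_mk x
    rfl
  have e2 : (resR (k := k) (χ := on k) (a := tr M) (subset_rfl : (univ : Set M) ⊆ univ)
      (hs₁.trans hs₂) n : Hr (tr M) (on k) univ B₂.A n → Hr (tr M) (on k) univ B'.A n) =
      (resR (k := k) (χ := on k) (a := tr M) (subset_rfl : (univ : Set M) ⊆ univ) hs₁ n) ∘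
        (resR (k := k) (χ := on k) (a := tr M) (subset_rfl : (univ : Set M) ⊆ univ) hs₂ n) := by
    funext x
    obtain ⟨f, hf, rfl⟩ := H.exists_mk x
    rfl
  rw [e1] at k1
  rw [e2] at k2
  have k3 : Function.Bijective (resR (k := k) (χ := on k) (a := tr M)
      (subset_rfl : (univ : Set M) ⊆ univ) hs₁ n : Hr (tr M) (on k) univ B₁.A n → _) :=
    ⟨Function.Injective.of_comp k1.1, Function.Surjective.of_comp k2.2⟩
  exact (Function.Bijective.of_comp_iff _ k3).1 k1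

/-! ### Generators and transition numbers -/

/-- The generator of the box. -/
theorem exists_g (h2 : (2 : k) ≠ 0) (B : Box M n) : ∃ g : Hr (tr M) (on k) (univ : Set M) B.A n,
    g ≠ 0 ∧ ∀ x, ∃ a : k, x = a • g := by
  obtain ⟨e⟩ := cube_equiv (k := k) h2 n
  have key : ∀ (V : Type) [AddCommGroup V] [Module k V] (L : V ≃ₗ[k] k), ∃ g : V, g ≠ 0 ∧
      ∀ x, ∃ a : k, x = a • g := by
    intro V _ _ L
    refine ⟨L.symm 1, fun h => ?_, fun x => ⟨L x, ?_⟩⟩
    · rw [LinearEquiv.map_eq_zero_iff] at h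
      exact one_ne_zero h
    · apply L.injective
      rw [map_smul, LinearEquiv.apply_symm_apply, smul_eq_mul, mul_one]
  exact key _ ((LinearEquiv.ofBijective _
    (Cub.th_bij (k := k) (c := B.c) h2 B.hδ B.hb n)).trans e)

/-- The chosen generator. -/
noncomputable def Box.g (h2 : (2 : k) ≠ 0) (B : Box M n) : Hr (tr M) (on k) (univ : Set M) B.A n :=
  (exists_g h2 B).choose

theorem Box.g_ne (h2 : (2 : k) ≠ 0) (B : Box M n) : B.g h2 ≠ 0 := (exists_g h2 B).choose_spec.1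

theorem Box.g_span (h2 : (2 : k) ≠ 0) (B : Box M n) (x : Hr (tr M) (on k) (univ : Set M) B.A n) :
    ∃ a : k, x = a • B.g h2 := (exists_g h2 B).choose_spec.2 x

theorem exists_tn (h2 : (2 : k) ≠ 0) (B' B : Box M n) : ∃ t : kˣ, ∀ h : B.A ⊆ B'.A,
    resR subset_rfl h n (B'.g h2) = (t : k) • B.g h2 := by
  by_cases h : B.A ⊆ B'.A
  · obtain ⟨a, ha⟩ := B.g_span h2 (resR subset_rfl h n (B'.g h2))
    have h0 : a ≠ 0 := by
      rintro rfl
      rw [zero_smul] at ha
      exact B'.g_ne h2 ((box_res_bij h2 h).1 (ha.trans (map_zero _).symm))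
    exact ⟨Units.mk0 a h0, fun _ => ha⟩
  · exact ⟨1, fun h' => absurd h' h⟩

/-- The transition number. -/
noncomputable def tn (h2 : (2 : k) ≠ 0) (B' B : Box M n) : kˣ := (exists_tn h2 B' B).choose

theorem tn_spec (h2 : (2 : k) ≠ 0) {B' B : Box M n} (h : B.A ⊆ B'.A) :
    resR subset_rfl h n (B'.g h2) = (tn h2 B' B : k) • B.g h2 := (exists_tn h2 B' B).choose_spec h

theorem tn_mul (h2 : (2 : k) ≠ 0) {B B' B'' : Box M n} (h : B.A ⊆ B'.A) (h' : B'.A ⊆ B''.A) :
    tn h2 B'' B = tn h2 B'' B' * tn h2 B' B := by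
  have e1 := tn_spec h2 (h.trans h')
  have e2 : resR subset_rfl (h.trans h') n (B''.g h2) =
      resR subset_rfl h n (resR subset_rfl h' n (B''.g h2)) := by
    obtain ⟨f, hf, hf'⟩ := H.exists_mk (B''.g h2)
    rw [← hf']
    rfl
  rw [e2, tn_spec h2 h', map_smul, tn_spec h2 h, smul_smul] at e1
  have e3 := sub_eq_zero.2 e1
  rw [← sub_smul] at e3
  rcases smul_eq_zero.1 e3 with h0 | h0
  · refine Units.ext ?_
    rw [Units.val_mul]
    exact (sub_eq_zero.1 h0).symm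
  · exact absurd h0 (B.g_ne h2)

end Vale.Agent.P216.H456D
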