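import Vale.Agent.P216.H456D.Ori

/-!
# P216-D, block [DIM], part 2: the orientation

`H1G M G`: every small-scale `G`-valued `1`-cocycle of `M` is a coboundary near the diagonal.
`exists_ori`: if `H1G M kˣ` there is a compatible family of generators of `H^n (M, B.A)`, `B` a
small box.
-/

set_option linter.all false

open Set Filter Topology

namespace Vale.Agent.P216.H456D

open Vale.Agent.P216.AS Vale.Agent.P216.H901 Vale.Agent.P216.H83 Vale.Agent.P216.H133C
  Vale.Agent.P216.C313 Vale.Agent.P216.D246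

/-- Small-scale cocycles with values in `G` are coboundaries near the diagonal. -/
def H1G (M : Type) [MetricSpace M] (G : Type) [Group G] : Prop :=
  ∀ (f : M → M → G) (r : ℝ), 0 < r →
    (∀ x y z, dist x y < r → dist y z < r → dist x z < r → f x y * f y z = f x z) →
      ∃ (l : M → G) (r' : ℝ), 0 < r' ∧ ∀ x y, dist x y < r' → f x y = l x * (l y)⁻¹

variable {M : Type} [MetricSpace M] {n : ℕ}

/-- The open box has diameter `< ε`. -/
def Small (ε : ℝ) (B : Box M n) : Prop := ∀ a ∉ B.A, ∀ b ∉ B.A, dist a b < ε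

theorem Small.mono {ε ε' : ℝ} (h : ε ≤ ε') {B : Box M n} (hB : Small ε B) : Small ε' B :=
  fun a ha b hb => (hB a ha b hb).trans_le h

theorem Small.sub {ε : ℝ} {B B' : Box M n} (h : B.A ⊆ B'.A) (hB : Small ε B) : Small ε B' :=
  fun a ha b hb => hB a (fun h' => ha (h h')) b fun h' => hb (h h')

variable [CompactSpace M]

theorem exists_small (loc : LocEuc M n) {ε : ℝ} (hε : 0 < ε) (x : M) :
    ∃ B : Box M n, x ∉ B.A ∧ Small ε B := by
  obtain ⟨c, hc, hc0⟩ := loc x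
  obtain ⟨B, -, hx, hs⟩ := exists_box_in (U := Metric.ball x (ε / 2)) Metric.isOpen_ball
    (Metric.mem_ball_self (half_pos hε)) hc (by rw [hc0, norm_zero]; exact two_pos)
  refine ⟨B, hx, fun a ha b hb => ?_⟩
  have h1 : a ∈ Metric.ball x (ε / 2) := by
    by_contra h
    exact ha (hs h)
  have h2 : b ∈ Metric.ball x (ε / 2) := by
    by_contra h
    exact hb (hs h)
  have := dist_triangle_right a b x
  rw [Metric.mem_ball] at h1 h2
  linarith

theorem exists_leb (W : M → Box M n) (hW : ∀ x, x ∉ (W x).A) : ∃ r > 0, ∀ x : M, ∃ z,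
    Metric.ball x r ⊆ (W z).Aᶜ := by
  obtain ⟨r, hr, h⟩ := lebesgue_number_lemma_of_metric (s := (univ : Set M))
    (c := fun z => (W z).Aᶜ) isCompact_univ (fun z => (W z).isOpen_U)
    fun x _ => mem_iUnion.2 ⟨x, hW x⟩
  exact ⟨r, hr, fun x => h x (mem_univ x)⟩

variable {k : Type} [Field k]

/-- **[TRANS]**: a compatible family of generators. -/
theorem exists_ori (h2 : (2 : k) ≠ 0) (loc : LocEuc M n) (hG : H1G M kˣ) :
    ∃ ε : ℝ, 0 < ε ∧ ∃ g : ∀ B : Box M n, Hr (tr M) (on k) (univ : Set M) B.A n,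
      (∀ B, g B ≠ 0) ∧ ∀ (B B' : Box M n) (h : B.A ⊆ B'.A), Small ε B →
        resR subset_rfl h n (g B') = g B := by
  classical
  choose β hβ hβ1 using fun x => exists_small (n := n) loc one_pos x
  obtain ⟨r₁, hr₁, hJ⟩ := exists_leb β hβ
  choose J hJ using hJ
  set γ : M → Box M n := fun x => β (J x) with hγ
  have incl : ∀ {B : Box M n}, Small r₁ B → ∀ {x}, x ∉ B.A → (γ x).A ⊆ B.A := by
    intro B hB x hx a ha
    by_contra hcon
    exact hJ x (Metric.mem_ball.2 (hB a hcon x hx)) ha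
  choose W hW hWs using fun x => exists_small (n := n) loc hr₁ x
  obtain ⟨r₂, hr₂, hL⟩ := exists_leb W hW
  -- independence of the box
  have indep : ∀ {B B' : Box M n}, Small r₁ B → Small r₁ B' → ∀ {x y}, x ∉ B.A → y ∉ B.A →
      x ∉ B'.A → y ∉ B'.A →
        tn h2 B (γ x) / tn h2 B (γ y) = tn h2 B' (γ x) / tn h2 B' (γ y) := by
    intro B B' hB hB' x y hx hy hx' hy'
    obtain ⟨hD, hn2⟩ := Box.mem_int hx
    obtain ⟨V, -, hxV, hV⟩ := exists_box_in (B.isOpen_U.inter B'.isOpen_U) ⟨hx, hx'⟩ hD hn2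
    have s1 : B.A ⊆ V.A := fun a ha => hV fun h => h.1 ha
    have s2 : B'.A ⊆ V.A := fun a ha => hV fun h => h.2 ha
    have e1 := tn_mul h2 (incl hB hx) s1
    have e2 := tn_mul h2 (incl hB hy) s1
    have e3 := tn_mul h2 (incl hB' hx') s2
    have e4 := tn_mul h2 (incl hB' hy') s2
    have e5 : tn h2 B (γ x) / tn h2 B (γ y) = tn h2 V (γ x) / tn h2 V (γ y) := by
      rw [e1, e2, mul_div_mul_left_eq_div]
    have e6 : tn h2 B' (γ x) / tn h2 B' (γ y) = tn h2 V (γ x) / tn h2 V (γ y) := by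
      rw [e3, e4, mul_div_mul_left_eq_div]
    rw [e5, e6]
  let f : M → M → kˣ := fun x y =>
    if h : ∃ B : Box M n, Small r₁ B ∧ x ∉ B.A ∧ y ∉ B.A then
      tn h2 h.choose (γ x) / tn h2 h.choose (γ y) else 1
  have hf : ∀ {B : Box M n}, Small r₁ B → ∀ {x y}, x ∉ B.A → y ∉ B.A →
      f x y = tn h2 B (γ x) / tn h2 B (γ y) := by
    intro B hB x y hx hy
    have h : ∃ B : Box M n, Small r₁ B ∧ x ∉ B.A ∧ y ∉ B.A := ⟨B, hB, hx, hy⟩
    have e : f x y = tn h2 h.choose (γ x) / tn h2 h.choose (γ y) := dif_pos h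
    rw [e]
    exact indep h.choose_spec.1 hB h.choose_spec.2.1 h.choose_spec.2.2 hx hy
  obtain ⟨l, r₃, hr₃, hl⟩ := hG f r₂ hr₂ fun x y z hxy hyz hxz => by
    obtain ⟨z₀, hz₀⟩ := hL x
    have hx : x ∉ (W z₀).A := hz₀ (Metric.mem_ball_self hr₂)
    have hy : y ∉ (W z₀).A := hz₀ (Metric.mem_ball'.2 hxy)
    have hz : z ∉ (W z₀).A := hz₀ (Metric.mem_ball'.2 hxz)
    rw [hf (hWs z₀) hx hy, hf (hWs z₀) hy hz, hf (hWs z₀) hx hz, div_mul_div_cancel]
  refine ⟨min r₁ r₃, lt_min hr₁ hr₃, fun B => ((l B.p / tn h2 B (γ B.p) : kˣ) : k) • B.g h2,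
    fun B => smul_ne_zero (Units.ne_zero _) (B.g_ne h2), fun B B' h hB => ?_⟩
  have hB1 := hB.mono (min_le_left _ _)
  have hB' := hB1.sub h
  have hp' : B'.p ∉ B.A := fun hh => B'.p_notMem (h hh)
  have e1 := tn_mul h2 (incl hB1 hp') h
  have e2 := hf hB1 B.p_notMem hp'
  rw [hl _ _ ((hB _ B.p_notMem _ hp').trans_le (min_le_right _ _))] at e2
  rw [map_smul, tn_spec h2 h, smul_smul, ← Units.val_mul]
  congr 2
  rw [e1]
  -- `l p' / (a b) * a = l p / c` from `l p (l p')⁻¹ = c / b`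
  have e3 : l B.p = tn h2 B (γ B.p) / tn h2 B (γ B'.p) * l B'.p := by
    rw [← e2, inv_mul_cancel_right]
  rw [e3, div_mul_eq_div_div_swap, div_mul_cancel, mul_comm _ (l B'.p), div_eq_mul_inv,
    div_eq_mul_inv, div_eq_mul_inv, mul_comm (tn h2 B (γ B.p)), ← mul_assoc,
    mul_inv_cancel_right]

end Vale.Agent.P216.H456D
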